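import Vale.Agent.P046.Bdl.B6

/-!
The degrees stay nearly regular (in mean) down to the level `K n^{3/2}`.
-/

set_option linter.all false

open scoped Classical
open Finset

namespace Vale.Agent.N046

open Vale.Agent.P046 Vale.Agent.P046.C

variable {n : ℕ}

/-- degree as a real number -/
noncomputable def dg (G : SimpleGraph (Fin n)) (v : Fin n) : ℝ :=
  ∑ u, if G.Adj v u then (1:ℝ) else 0

/-- relative deviation of the degree -/
noncomputable def dl (G : SimpleGraph (Fin n)) (v : Fin n) : ℝ :=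
  n * dg G v / (2 * numEdges G) - 1

/-- Huber energy of the degrees -/
noncomputable def QD (η : ℝ) (G : SimpleGraph (Fin n)) : ℝ := (∑ v, huber η (dl G v)) / n

lemma dg_eq (G : SimpleGraph (Fin n)) (v : Fin n) : dg G v = (G.degree v : ℝ) := by
  unfold dg
  rw [← SimpleGraph.card_neighborFinset_eq_degree, SimpleGraph.neighborFinset_eq_filter,
    Finset.card_filter]
  push_cast
  rfl

lemma dg_nonneg (G : SimpleGraph (Fin n)) (v : Fin n) : 0 ≤ dg G v :=
  Finset.sum_nonneg fun _ _ => by split_ifs <;> norm_num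

lemma sum_dg (G : SimpleGraph (Fin n)) : ∑ v, dg G v = 2 * (numEdges G : ℝ) :=
  OS.edgeSum_one G

lemma QD_nonneg (η : ℝ) (hη : 0 < η) (G : SimpleGraph (Fin n)) : 0 ≤ QD η G :=
  div_nonneg (Finset.sum_nonneg fun v _ => huber_nonneg η _ hη) (Nat.cast_nonneg _)

lemma cnt2 (G : SimpleGraph (Fin n)) (t : Finset (Fin n)) (ht : t ∈ triangles G) (v : Fin n) :
    ∑ u, (if G.Adj v u ∧ (v ∈ t ∧ u ∈ t) then (1:ℝ) else 0) = 2 * if v ∈ t then 1 else 0 := by
  unfold triangles at ht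
  rw [SimpleGraph.mem_cliqueFinset_iff] at ht
  by_cases hv : v ∈ t
  · rw [if_pos hv, mul_one]
    have h1 : ∀ u, (if G.Adj v u ∧ (v ∈ t ∧ u ∈ t) then (1:ℝ) else 0) =
        if u ∈ t.erase v then 1 else 0 := by
      intro u
      have : (G.Adj v u ∧ (v ∈ t ∧ u ∈ t)) ↔ u ∈ t.erase v := by
        rw [Finset.mem_erase]
        constructor
        · rintro ⟨h, -, h2⟩
          exact ⟨(G.ne_of_adj h).symm, h2⟩
        · rintro ⟨h, h2⟩
          exact ⟨ht.1 (Finset.mem_coe.mpr hv) (Finset.mem_coe.mpr h2) (Ne.symm h), hv, h2⟩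
      simp only [this]
    rw [Finset.sum_congr rfl fun u _ => h1 u, Finset.sum_ite_mem, Finset.univ_inter,
      Finset.sum_const, nsmul_eq_mul, mul_one, Finset.card_erase_of_mem hv, ht.2]
    norm_num
  · rw [if_neg hv, mul_zero]
    exact Finset.sum_eq_zero fun u _ => if_neg fun h => hv h.2.1

lemma dg_remove (G : SimpleGraph (Fin n)) (t : Finset (Fin n)) (ht : t ∈ triangles G)
    (v : Fin n) : dg (removeTriangle G t) v = dg G v - 2 * if v ∈ t then 1 else 0 := by
  rw [← cnt2 G t ht v]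
  unfold dg
  rw [← Finset.sum_sub_distrib]
  refine Finset.sum_congr rfl fun u _ => ?_
  rw [OS.removeTriangle_adj]
  by_cases h1 : G.Adj v u <;> by_cases h2 : v ∈ t ∧ u ∈ t <;> simp [h1, h2]

lemma tri_at (G : SimpleGraph (Fin n)) (v : Fin n) :
    2 * ∑ t ∈ triangles G, (if v ∈ t then (1:ℝ) else 0) =
      ∑ u, if G.Adj v u then (codeg G v u : ℝ) else 0 := by
  rw [Finset.mul_sum, ← Finset.sum_congr rfl fun t ht => cnt2 G t ht v, Finset.sum_comm]
  refine Finset.sum_congr rfl fun u _ => ?_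
  by_cases h : G.Adj v u
  · rw [if_pos h, ← sum_tri_mem G v u h]
    refine Finset.sum_congr rfl fun t _ => ?_
    simp only [h, true_and]
  · rw [if_neg h]
    exact Finset.sum_eq_zero fun t _ => if_neg fun h' => h h'.1

lemma sum_mem_tri (G : SimpleGraph (Fin n)) (t : Finset (Fin n)) (ht : t ∈ triangles G) :
    ∑ v, (if v ∈ t then (1:ℝ) else 0) = 3 := by
  unfold triangles at ht
  rw [SimpleGraph.mem_cliqueFinset_iff] at ht
  rw [Finset.sum_ite_mem, Finset.univ_inter, Finset.sum_const, nsmul_eq_mul, mul_one, ht.2]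
  norm_num

/-- total deviation of the codegrees along the edges -/
noncomputable def YY (G : SimpleGraph (Fin n)) : ℝ :=
  edgeSum G (fun u v => |rho G - 1| + |zz G u v|)

lemma drift_v (G : SimpleGraph (Fin n)) (hn : 0 < n) (hE : 0 < numEdges G) (v : Fin n) :
    |3 * dg G v / (2 * numEdges G) * (triangles G).card -
      ∑ t ∈ triangles G, (if v ∈ t then (1:ℝ) else 0)| ≤
      cc G / 2 * ∑ u, if G.Adj v u then (|rho G - 1| + |zz G v u|) else 0 := by
  have hc := cc_pos G hn hE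
  have hE0 : (0:ℝ) < numEdges G := by exact_mod_cast hE
  have h1 := tri_at G v
  have h2 : 3 * dg G v / (2 * numEdges G) * (triangles G).card -
      ∑ t ∈ triangles G, (if v ∈ t then (1:ℝ) else 0) =
      cc G / 2 * ∑ u, if G.Adj v u then ((rho G - 1) - zz G v u) else 0 := by
    have h3 : ∑ u, (if G.Adj v u then ((rho G - 1) - zz G v u) else 0) * cc G =
        dg G v * (rho G * cc G) - ∑ u, if G.Adj v u then (codeg G v u : ℝ) else 0 := by
      unfold dg
      rw [Finset.sum_mul, ← Finset.sum_sub_distrib]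
      refine Finset.sum_congr rfl fun u _ => ?_
      by_cases h : G.Adj v u
      · rw [if_pos h, if_pos h, if_pos h, codeg_eq G hc]
        ring
      · rw [if_neg h, if_neg h, if_neg h]
        ring
    rw [← Finset.sum_mul] at h3
    rw [T_eq G hn hE]
    have e : 3 * dg G v / (2 * numEdges G) * ((1 + (rho G - 1)) * cc G * numEdges G / 3) =
        dg G v * (rho G * cc G) / 2 := by
      field_simp
      ring
    rw [e]
    linarith only [h1, h3]
  rw [h2, abs_mul, abs_of_pos (by positivity : 0 < cc G / 2)]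
  apply mul_le_mul_of_nonneg_left _ (by positivity)
  refine (Finset.abs_sum_le_sum_abs _ _).trans (Finset.sum_le_sum fun u _ => ?_)
  split_ifs
  · exact abs_sub _ _
  · simp

lemma sum_dg_sq (G : SimpleGraph (Fin n)) : ∑ v, dg G v ^ 2 ≤ 4 * (numEdges G : ℝ) ^ 2 := by
  have h1 : ∀ v, dg G v ≤ 2 * (numEdges G : ℝ) := fun v => by
    rw [← sum_dg]
    exact Finset.single_le_sum (fun u _ => dg_nonneg G u) (Finset.mem_univ v)
  calc ∑ v, dg G v ^ 2 ≤ ∑ v, dg G v * (2 * (numEdges G : ℝ)) :=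
        Finset.sum_le_sum fun v _ => by
          rw [sq]; exact mul_le_mul_of_nonneg_left (h1 v) (dg_nonneg G v)
    _ = 4 * (numEdges G : ℝ) ^ 2 := by rw [← Finset.sum_mul, sum_dg]; ring

/-- one step of the degree energy -/
lemma QD_step (η : ℝ) (hη : 0 < η) (G : SimpleGraph (Fin n)) (hn : 0 < n)
    (hE : 3 < (numEdges G : ℝ)) :
    ∑ t ∈ triangles G, QD η (removeTriangle G t) ≤ (triangles G).card * QD η G +
      η * cc G * YY G / (numEdges G - 3) +
        24 * n * (triangles G).card / ((numEdges G : ℝ) - 3) ^ 2 := by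
  have hn0 : (0:ℝ) < n := by exact_mod_cast hn
  have hEn : 0 < numEdges G := by
    have : (0:ℝ) < numEdges G := by linarith only [hE]
    exact_mod_cast this
  obtain ⟨e, he⟩ : ∃ e : ℝ, e = numEdges G := ⟨_, rfl⟩
  obtain ⟨T, hT⟩ : ∃ T : ℝ, T = (triangles G).card := ⟨_, rfl⟩
  have hT0 : 0 ≤ T := by rw [hT]; positivity
  have he0 : 0 < e := by rw [he]; linarith only [hE]
  have he3 : 0 < e - 3 := by rw [he]; linarith only [hE]
  obtain ⟨w, hw⟩ : ∃ w : ℝ, w = n / (e - 3) := ⟨_, rfl⟩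
  have hw0 : 0 < w := by rw [hw]; positivity
  obtain ⟨i, hi⟩ : ∃ i : Finset (Fin n) → Fin n → ℝ, i = fun t v => if v ∈ t then 1 else 0 :=
    ⟨_, rfl⟩
  have hh : ∀ t ∈ triangles G, ∀ v, dl (removeTriangle G t) v - dl G v =
      w * (3 * dg G v / (2 * e) - i t v) := by
    intro t ht v
    unfold dl
    rw [numEdges_remove_real G t ht, dg_remove G t ht v, ← he, hw, hi]
    field_simp
    ring
  have h1 : ∀ t ∈ triangles G, ∀ v, huber η (dl (removeTriangle G t) v) ≤
      huber η (dl G v) + 2 * w * (clip η (dl G v) * (3 * dg G v / (2 * e) - i t v)) +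
        w ^ 2 * (9 / (2 * e ^ 2) * dg G v ^ 2 + 2 * i t v) := by
    intro t ht v
    have h2 := huber_taylor η (dl G v) (dl (removeTriangle G t) v) hη
    rw [hh t ht v] at h2
    have h3 : (3 * dg G v / (2 * e) - i t v) ^ 2 ≤ 9 / (2 * e ^ 2) * dg G v ^ 2 + 2 * i t v := by
      have h4 : i t v ^ 2 = i t v := by
        rw [hi]; dsimp only; split_ifs <;> norm_num
      have h5 : 9 / (2 * e ^ 2) * dg G v ^ 2 = 2 * (3 * dg G v / (2 * e)) ^ 2 := by
        field_simp
        ring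
      rw [h5]
      nlinarith only [h4, sq_nonneg (3 * dg G v / (2 * e) + i t v)]
    have h6 := mul_le_mul_of_nonneg_left h3 (sq_nonneg w)
    have e1 : (w * (3 * dg G v / (2 * e) - i t v)) ^ 2 =
        w ^ 2 * (3 * dg G v / (2 * e) - i t v) ^ 2 := by ring
    rw [e1] at h2
    linarith only [h2, h6]
  have h7 : ∑ t ∈ triangles G, ∑ v, huber η (dl (removeTriangle G t) v) ≤
      T * ∑ v, huber η (dl G v) + 2 * w * (η * (cc G / 2 * YY G)) + w ^ 2 * (24 * T) := by
    refine (Finset.sum_le_sum fun t ht => Finset.sum_le_sum fun v _ => h1 t ht v).trans ?_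
    simp only [Finset.sum_add_distrib]
    have a1 : ∑ t ∈ triangles G, ∑ v, huber η (dl G v) = T * ∑ v, huber η (dl G v) := by
      rw [Finset.sum_const, nsmul_eq_mul, hT]
    have a2 : ∑ t ∈ triangles G, ∑ v,
        2 * w * (clip η (dl G v) * (3 * dg G v / (2 * e) - i t v)) ≤
        2 * w * (η * (cc G / 2 * YY G)) := by
      rw [Finset.sum_comm]
      have b1 : ∀ v, ∑ t ∈ triangles G,
          2 * w * (clip η (dl G v) * (3 * dg G v / (2 * e) - i t v)) ≤
          2 * w * (η * (cc G / 2 *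
            ∑ u, if G.Adj v u then (|rho G - 1| + |zz G v u|) else 0)) := by
        intro v
        rw [← Finset.mul_sum, ← Finset.mul_sum]
        apply mul_le_mul_of_nonneg_left _ (by positivity)
        have b2 := drift_v G hn hEn v
        have b3 : ∑ t ∈ triangles G, (3 * dg G v / (2 * e) - i t v) =
            3 * dg G v / (2 * numEdges G) * (triangles G).card -
              ∑ t ∈ triangles G, (if v ∈ t then (1:ℝ) else 0) := by
          rw [Finset.sum_sub_distrib, Finset.sum_const, nsmul_eq_mul, he, hi]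
          ring
        rw [b3]
        refine (le_abs_self _).trans ?_
        rw [abs_mul]
        exact mul_le_mul (clip_abs η _ hη) b2 (abs_nonneg _) hη.le
      refine (Finset.sum_le_sum fun v _ => b1 v).trans (le_of_eq ?_)
      rw [← Finset.mul_sum, ← Finset.mul_sum, ← Finset.mul_sum]
      rfl
    have a3 : ∑ t ∈ triangles G, ∑ v, w ^ 2 * (9 / (2 * e ^ 2) * dg G v ^ 2 + 2 * i t v) ≤
        w ^ 2 * (24 * T) := by
      have b1 : ∀ t ∈ triangles G, ∑ v, w ^ 2 * (9 / (2 * e ^ 2) * dg G v ^ 2 + 2 * i t v) ≤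
          w ^ 2 * 24 := by
        intro t ht
        rw [← Finset.mul_sum]
        apply mul_le_mul_of_nonneg_left _ (sq_nonneg w)
        rw [Finset.sum_add_distrib, ← Finset.mul_sum, ← Finset.mul_sum]
        have b2 : ∑ v, i t v = 3 := by rw [hi]; exact sum_mem_tri G t ht
        have b3 := sum_dg_sq G
        rw [← he] at b3
        have b4 : 9 / (2 * e ^ 2) * ∑ v, dg G v ^ 2 ≤ 9 / (2 * e ^ 2) * (4 * e ^ 2) :=
          mul_le_mul_of_nonneg_left b3 (by positivity)
        have b5 : 9 / (2 * e ^ 2) * (4 * e ^ 2) = 18 := by field_simp; norm_num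
        rw [b2]
        linarith only [b4, b5]
      refine (Finset.sum_le_sum b1).trans (le_of_eq ?_)
      rw [Finset.sum_const, nsmul_eq_mul, ← hT]
      ring
    linarith only [a1, a2, a3]
  have e2 : ∑ t ∈ triangles G, QD η (removeTriangle G t) =
      (∑ t ∈ triangles G, ∑ v, huber η (dl (removeTriangle G t) v)) / n := by
    unfold QD
    rw [Finset.sum_div]
  rw [e2, ← he, ← hT]
  unfold QD
  rw [div_le_iff₀ hn0]
  refine h7.trans (le_of_eq ?_)
  rw [hw]
  field_simp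

lemma abs_le_ff (z s : ℝ) (hs : 0 < s) (hs1 : s ≤ 1) : |z| ≤ s + Lv.ff z / s ^ 3 := by
  have h0 : 0 ≤ Lv.ff z := le_min (by positivity) (by positivity)
  have hs3 : 0 < s ^ 3 := by positivity
  rcases le_or_gt |z| s with h | h
  · have : 0 ≤ Lv.ff z / s ^ 3 := by positivity
    linarith only [h, this]
  · have h1 : |z| * s ^ 3 ≤ Lv.ff z := by
      have h2 : s ^ 3 ≤ |z| ^ 3 := pow_le_pow_left₀ hs.le h.le 3
      refine le_min ?_ ?_
      · calc |z| * s ^ 3 ≤ |z| * |z| ^ 3 := mul_le_mul_of_nonneg_left h2 (abs_nonneg _)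
          _ = |z| ^ 4 := by ring
          _ = z ^ 4 := by rw [show (4:ℕ) = 2 * 2 from rfl, pow_mul, pow_mul, sq_abs]
      · have h3 : s ^ 3 ≤ s := by
          calc s ^ 3 = s * (s * s) := by ring
            _ ≤ s * 1 := mul_le_mul_of_nonneg_left (mul_le_one₀ hs1 hs.le hs1) hs.le
            _ = s := mul_one _
        calc |z| * s ^ 3 ≤ |z| * |z| := mul_le_mul_of_nonneg_left (h3.trans h.le) (abs_nonneg _)
          _ = z ^ 2 := by rw [← sq, sq_abs]
    have h4 : |z| ≤ Lv.ff z / s ^ 3 := by rw [le_div_iff₀ hs3]; exact h1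
    linarith only [h4, hs]

lemma FC_ge (G : SimpleGraph (Fin n)) :
    1e-9 * TH 1e-46 G ≤ M2.FC G ∧ 1e7 * RF G ≤ M2.FC G := by
  have h1 : 0 ≤ MM 1e-23 G := MM_nonneg 1e-23 (by norm_num) G
  have h2 : 0 ≤ TH 1e-46 G := TH_nonneg _ (by norm_num) G
  have h3 := RF_nonneg G
  unfold M2.FC FF
  constructor
  · have : 0 ≤ 1e7 * RF G := by positivity
    linarith only [h1, this]
  · have : 0 ≤ 1e-9 * TH 1e-46 G := by positivity
    linarith only [h1, this]

lemma YY_le (G : SimpleGraph (Fin n)) (s : ℝ) (hs : 0 < s) (hs1 : s ≤ 1) :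
    YY G ≤ 4 * numEdges G * s + 4e12 * M2.FC G / s ^ 3 := by
  have hs3 : 0 < s ^ 3 := by positivity
  have h1 : YY G ≤ edgeSum G (fun u v => (2 * s + (rho G - 1) ^ 2 / s ^ 3) +
      (3600 / s ^ 3) * theta 1e-46 (rr G u v)) := by
    unfold YY
    refine edgeSum_mono G _ _ fun u v _ => ?_
    have a1 := abs_le_ff (zz G u v) s hs hs1
    have a2 := abs_le_ff (rho G - 1) s hs hs1
    have a3 : Lv.ff (rho G - 1) / s ^ 3 ≤ (rho G - 1) ^ 2 / s ^ 3 :=
      div_le_div_of_nonneg_right (min_le_right _ _) hs3.le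
    have a4 : Lv.ff (zz G u v) / s ^ 3 ≤ (3600 * theta 1e-46 (rr G u v)) / s ^ 3 :=
      div_le_div_of_nonneg_right (Lv.ff_le_theta _ (Lv.rr_nonneg' G u v)) hs3.le
    have e : (3600 * theta 1e-46 (rr G u v)) / s ^ 3 = (3600 / s ^ 3) * theta 1e-46 (rr G u v) := by
      ring
    linarith only [a1, a2, a3, a4, e]
  rw [edgeSum_add, edgeSum_const, edgeSum_mul] at h1
  obtain ⟨h2, h3⟩ := FC_ge G
  have e1 : edgeSum G (fun u v => theta 1e-46 (rr G u v)) = TH 1e-46 G := rfl
  rw [e1] at h1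
  have e2 : 2 * (numEdges G : ℝ) * (2 * s + (rho G - 1) ^ 2 / s ^ 3) + 3600 / s ^ 3 * TH 1e-46 G =
      4 * numEdges G * s + (2 * RF G + 3600 * TH 1e-46 G) / s ^ 3 := by
    unfold RF
    ring
  rw [e2] at h1
  have h4 : (2 * RF G + 3600 * TH 1e-46 G) / s ^ 3 ≤ 4e12 * M2.FC G / s ^ 3 := by
    apply div_le_div_of_nonneg_right _ hs3.le
    have h5 := RF_nonneg G
    norm_num at h2 h3 ⊢
    linarith only [h2, h3, h5]
  linarith only [h1, h4]

/-- fourth root of `e0 / e` -/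
noncomputable def r4 (e0 e : ℝ) : ℝ := √(√(e0 / e))

lemma r4_pos (e0 e : ℝ) (h0 : 0 < e0) (he : 0 < e) : 0 < r4 e0 e := by
  unfold r4; positivity

lemma r4_pow (e0 e : ℝ) (h0 : 0 < e0) (he : 0 < e) : r4 e0 e ^ 4 = e0 / e := by
  unfold r4
  rw [show (4:ℕ) = 2 * 2 from rfl, pow_mul, Real.sq_sqrt (Real.sqrt_nonneg _),
    Real.sq_sqrt (by positivity)]

lemma r4_le_one (e0 e : ℝ) (h0 : 0 < e0) (he : e0 ≤ e) : r4 e0 e ≤ 1 := by
  have he0 : 0 < e := h0.trans_le he
  have h1 : r4 e0 e ^ 4 ≤ 1 := by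
    rw [r4_pow e0 e h0 he0, div_le_one he0]; exact he
  exact (pow_le_one_iff_of_nonneg (r4_pos e0 e h0 he0).le (by norm_num)).mp h1

lemma sqrt_mul_eq (e0 e : ℝ) (h0 : 0 < e0) (he : 0 < e) : √(e0 * e) = e * r4 e0 e ^ 2 := by
  have h1 := r4_pow e0 e h0 he
  have h2 := r4_pos e0 e h0 he
  rw [Real.sqrt_eq_iff_mul_self_eq (by positivity) (by positivity)]
  have e1 : e * r4 e0 e ^ 2 * (e * r4 e0 e ^ 2) = e ^ 2 * r4 e0 e ^ 4 := by ring
  rw [e1, h1]
  field_simp

lemma r4_step (e0 e : ℝ) (h0 : 0 < e0) (he : 13 ≤ e) :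
    r4 e0 e / (e - 3) ≤ 2 * (r4 e0 (e - 3) - r4 e0 e) := by
  have he3 : 0 < e - 3 := by linarith only [he]
  have he0 : 0 < e := by linarith only [he]
  obtain ⟨y, hy⟩ : ∃ y : ℝ, y = 1 / (2 * (e - 3)) := ⟨_, rfl⟩
  have hy0 : 0 < y := by rw [hy]; positivity
  have hy1 : y ≤ 1 / 20 := by
    rw [hy]
    exact one_div_le_one_div_of_le (by norm_num) (by linarith only [he])
  have h1 : r4 e0 e * (1 + y) ≤ r4 e0 (e - 3) := by
    have hp := r4_pos e0 e h0 he0
    refine (pow_le_pow_iff_left₀ (by positivity) (r4_pos e0 (e - 3) h0 he3).le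
      (by norm_num : (4:ℕ) ≠ 0)).mp ?_
    rw [mul_pow, r4_pow e0 e h0 he0, r4_pow e0 (e - 3) h0 he3]
    have h2 : (1 + y) ^ 4 ≤ 1 + 6 * y := by
      have a1 : y ^ 2 ≤ y / 20 := by nlinarith only [hy0, hy1]
      have a2 : y ^ 3 ≤ y / 20 := by nlinarith only [hy0, hy1, a1]
      have a3 : y ^ 4 ≤ y / 20 := by nlinarith only [hy0, hy1, a2]
      nlinarith only [a1, a2, a3, hy0]
    have h3 : e0 / e * (1 + 6 * y) = e0 / (e - 3) := by
      rw [hy]
      field_simp
      ring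
    rw [← h3]
    exact mul_le_mul_of_nonneg_left h2 (by positivity)
  have e1 : r4 e0 e / (e - 3) = 2 * (r4 e0 e * y) := by
    rw [hy]
    field_simp
  rw [e1]
  linarith only [h1]

lemma super_level3 (Φ : SimpleGraph (Fin n) → ℝ) (f : SimpleGraph (Fin n) → ℝ) (e1 : ℕ)
    (hf : ∀ H, f H ≤ 1)
    (h0 : ∀ G, numEdges G = e1 → f G ≤ Φ G)
    (h2 : ∀ G, e1 + 3 ≤ numEdges G → (1 ≤ Φ G ∨
      ((triangles G).Nonempty ∧
        ∑ t ∈ triangles G, Φ (removeTriangle G t) ≤ (triangles G).card * Φ G)))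
    (k : ℕ) (G : SimpleGraph (Fin n)) (hk : numEdges G = e1 + 3 * k) :
    V f k G ≤ Φ G := by
  induction k generalizing G with
  | zero =>
    rw [V_zero]
    exact h0 G (by omega)
  | succ k ih =>
    rcases h2 G (by omega) with h3 | ⟨hT, h3⟩
    · exact (V_le_one f hf (k + 1) G).trans h3
    · rw [V_succ_of_nonempty _ _ _ hT]
      have hc : (0 : ℝ) < (triangles G).card := by exact_mod_cast hT.card_pos
      rw [div_le_iff₀ hc]
      calc (∑ t ∈ triangles G, V f k (removeTriangle G t))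
          ≤ ∑ t ∈ triangles G, Φ (removeTriangle G t) := by
            refine Finset.sum_le_sum fun t ht => ?_
            have h5 := numEdges_removeTriangle G t ht
            exact ih _ (by omega)
        _ ≤ (triangles G).card * Φ G := h3
        _ = Φ G * (triangles G).card := mul_comm _ _

/-- the degree energy along the process, given a potential that controls the functional -/
lemma deg_super (η s0 : ℝ) (hη : 0 < η) (hs0 : 0 < s0) (hs1 : s0 ≤ 1) (hn : 0 < n) (e1 : ℕ)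
    (he1 : 10 ≤ e1) (Ψ : SimpleGraph (Fin n) → ℝ)
    (h0 : ∀ G : SimpleGraph (Fin n), e1 ≤ numEdges G →
      √((e1:ℝ) * numEdges G) * M2.FC G ≤ Ψ G * (e1:ℝ) ^ 2)
    (hstep : ∀ G : SimpleGraph (Fin n), e1 < numEdges G → (1 ≤ Ψ G ∨ ((triangles G).Nonempty ∧
      ∑ t ∈ triangles G, Ψ (removeTriangle G t) ≤ (triangles G).card * Ψ G)))
    (k : ℕ) (G0 : SimpleGraph (Fin n)) (hk : numEdges G0 = e1 + 3 * k) :
    V (fun G => min 1 (QD η G / η ^ 2)) k G0 ≤
      (QD η G0 + 32 * η * s0 + 16 * n / e1 + (η ^ 2 + 32e12 * η / s0 ^ 3) * Ψ G0) / η ^ 2 := by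
  have hn0 : (0:ℝ) < n := by exact_mod_cast hn
  obtain ⟨e0, he0⟩ : ∃ e0 : ℝ, e0 = e1 := ⟨_, rfl⟩
  have he00 : 10 ≤ e0 := by rw [he0]; exact_mod_cast he1
  have he0p : 0 < e0 := by linarith only [he00]
  rw [← he0] at h0 ⊢
  obtain ⟨α, hα⟩ : ∃ α : ℝ, α = 16 * η * s0 := ⟨_, rfl⟩
  obtain ⟨β, hβ⟩ : ∃ β : ℝ, β = 16e12 * η / s0 ^ 3 := ⟨_, rfl⟩
  have hα0 : 0 < α := by rw [hα]; positivity
  have hβ0 : 0 < β := by rw [hβ]; positivity
  have hη2 : 0 < η ^ 2 := by positivity
  have hle : ∀ G : SimpleGraph (Fin n), e1 ≤ numEdges G → e0 ≤ (numEdges G : ℝ) := by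
    intro G hG
    rw [he0]; exact_mod_cast hG
  have hFC0 : ∀ G : SimpleGraph (Fin n), 0 ≤ M2.FC G := fun G =>
    FF_nonneg 1e-23 1e-46 1e-9 1e7 (by norm_num) (by norm_num) (by norm_num) (by norm_num) G
  have hΨ0 : ∀ G : SimpleGraph (Fin n), e1 ≤ numEdges G → 0 ≤ Ψ G := by
    intro G hG
    have h1 := h0 G hG
    have h2 : 0 ≤ √(e0 * numEdges G) * M2.FC G := mul_nonneg (Real.sqrt_nonneg _) (hFC0 G)
    by_contra hneg
    push Not at hneg
    have : Ψ G * e0 ^ 2 < 0 := mul_neg_of_neg_of_pos hneg (by positivity)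
    linarith only [h1, h2, this]
  obtain ⟨g, hg⟩ : ∃ g : ℝ → ℝ, g = fun e => 2 * (1 - r4 e0 e) := ⟨_, rfl⟩
  have hg0 : ∀ e, e0 ≤ e → 0 ≤ g e := fun e he => by
    rw [hg]; have := r4_le_one e0 e he0p he; dsimp only; linarith only [this]
  have hg2 : ∀ e, e0 ≤ e → g e ≤ 2 := fun e he => by
    rw [hg]; have := r4_pos e0 e he0p (he0p.trans_le he); dsimp only; linarith only [this]
  obtain ⟨u, hu⟩ : ∃ u : ℝ → ℝ, u = fun e => 16 * n * (1 / e0 - 1 / e) := ⟨_, rfl⟩
  have hu0 : ∀ e, e0 ≤ e → 0 ≤ u e := fun e he => by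
    rw [hu]
    have := one_div_le_one_div_of_le he0p he
    exact mul_nonneg (by positivity) (by linarith only [this])
  obtain ⟨W, hW⟩ : ∃ W : SimpleGraph (Fin n) → ℝ, W = fun G =>
    (QD η G + α * g (numEdges G) + u (numEdges G) + (η ^ 2 + β * g (numEdges G)) * Ψ G) / η ^ 2 :=
    ⟨_, rfl⟩
  have hsup := super_level3 W (fun G => min 1 (QD η G / η ^ 2)) e1 (fun _ => min_le_left _ _)
    (by
      intro G hG
      refine (min_le_right _ _).trans ?_
      rw [hW]
      apply div_le_div_of_nonneg_right _ hη2.le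
      have a1 := hg0 _ (hle G hG.ge)
      have a2 := hu0 _ (hle G hG.ge)
      have a3 := hΨ0 G hG.ge
      have a4 : 0 ≤ (η ^ 2 + β * g (numEdges G)) * Ψ G := by positivity
      have a5 : 0 ≤ α * g (numEdges G) := by positivity
      linarith only [a2, a4, a5])
    (by
      intro G h13
      have hG : e1 < numEdges G := by omega
      have hGe := hle G hG.le
      have a1 := hg0 _ hGe
      have a2 := hu0 _ hGe
      have a3 := hΨ0 G hG.le
      have a6 := QD_nonneg η hη G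
      have hbad : 1 ≤ Ψ G → 1 ≤ W G := by
        intro h1
        rw [hW]
        dsimp only
        rw [le_div_iff₀ hη2, one_mul]
        have a5 : 0 ≤ α * g (numEdges G) := by positivity
        have a7 : η ^ 2 * 1 ≤ (η ^ 2 + β * g (numEdges G)) * Ψ G :=
          mul_le_mul (by have : 0 ≤ β * g (numEdges G) := by positivity
                         linarith only [this]) h1 (by norm_num) (by positivity)
        linarith only [a2, a5, a6, a7]
      rcases le_or_gt 1 (Ψ G) with hΨ1 | hΨ1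
      · exact Or.inl (hbad hΨ1)
      rcases hstep G hG with h1 | ⟨hne, h1⟩
      · exact Or.inl (hbad h1)
      right
      refine ⟨hne, ?_⟩
      obtain ⟨e, he⟩ : ∃ e : ℝ, e = numEdges G := ⟨_, rfl⟩
      obtain ⟨T, hT⟩ : ∃ T : ℝ, T = (triangles G).card := ⟨_, rfl⟩
      have hT0 : 0 ≤ T := by rw [hT]; positivity
      have he3 : e0 ≤ e - 3 := by
        have : ((e1 + 3 : ℕ) : ℝ) ≤ numEdges G := by exact_mod_cast h13
        push_cast at this
        rw [he0, he]; linarith only [this]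
      have hep : 0 < e := by linarith only [he3, he0p]
      have he3p : 0 < e - 3 := by linarith only [he3, he0p]
      have hEn : 0 < numEdges G := by omega
      obtain ⟨r, hr⟩ : ∃ r : ℝ, r = r4 e0 e := ⟨_, rfl⟩
      have hr0 : 0 < r := by rw [hr]; exact r4_pos e0 e he0p hep
      have hr1 : r ≤ 1 := by rw [hr]; exact r4_le_one e0 e he0p (by linarith only [he3])
      have hr4 : e0 = e * r ^ 4 := by rw [hr, r4_pow e0 e he0p hep]; field_simp
      have hF : M2.FC G ≤ Ψ G * e * r ^ 6 := by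
        have b1 := h0 G hG.le
        rw [← he, sqrt_mul_eq e0 e he0p hep, ← hr] at b1
        have b2 : Ψ G * e0 ^ 2 = e * r ^ 2 * (Ψ G * e * r ^ 6) := by rw [hr4]; ring
        rw [b2] at b1
        exact le_of_mul_le_mul_left b1 (by positivity)
      have hr6 : r ^ 6 ≤ 1 := pow_le_one₀ hr0.le hr1
      have hrho : |rho G - 1| ≤ 1 / 4 := by
        have b1 := (FC_ge G).2
        unfold RF at b1
        rw [← he] at b1
        have b2 : Ψ G * e * r ^ 6 ≤ 1 * e * 1 :=
          mul_le_mul (mul_le_mul_of_nonneg_right hΨ1.le hep.le) hr6 (by positivity) (by positivity)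
        have b3 : e * (1e7 * (rho G - 1) ^ 2) ≤ e * 1 := by linarith only [b1, b2, hF]
        have b4 := le_of_mul_le_mul_left b3 hep
        apply abs_le_of_sq_le_sq _ (by norm_num)
        norm_num at b4 ⊢
        linarith only [b4]
      have hc := cc_pos G hn hEn
      have hcT : cc G * e ≤ 4 * T := by
        rw [hT, T_eq G hn hEn, ← he]
        have b1 := (abs_le.mp hrho).1
        have b2 : 0 < cc G * e := by positivity
        nlinarith only [b1, b2]
      have hY := YY_le G (s0 * r) (by positivity) (mul_le_one₀ hs1 hr0.le hr1)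
      rw [← he] at hY
      have hY2 : YY G ≤ e * r * (4 * s0 + 4e12 * Ψ G / s0 ^ 3) := by
        refine hY.trans ?_
        have b1 : 4e12 * M2.FC G / (s0 * r) ^ 3 ≤ e * r * (4e12 * Ψ G / s0 ^ 3) := by
          rw [div_le_iff₀ (by positivity)]
          have b2 : e * r * (4e12 * Ψ G / s0 ^ 3) * (s0 * r) ^ 3 = 4e12 * (Ψ G * e * r ^ 4) := by
            field_simp
          rw [b2]
          apply mul_le_mul_of_nonneg_left _ (by norm_num)
          refine hF.trans (mul_le_mul_of_nonneg_left ?_ (by positivity))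
          exact pow_le_pow_of_le_one hr0.le hr1 (by norm_num)
        nlinarith only [b1]
      have hQ := QD_step η hη G hn (by rw [← he]; linarith only [he3p])
      rw [← he, ← hT] at hQ
      rw [← hT] at h1
      have hd1 : η * cc G * YY G / (e - 3) ≤ T * (r / (e - 3) * (α + β * Ψ G)) := by
        rw [div_le_iff₀ he3p]
        have b1 : T * (r / (e - 3) * (α + β * Ψ G)) * (e - 3) =
            η * (4 * T) * (r * (4 * s0 + 4e12 * Ψ G / s0 ^ 3)) := by
          rw [hα, hβ]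
          field_simp
          ring
        rw [b1]
        have b2 : 0 ≤ r * (4 * s0 + 4e12 * Ψ G / s0 ^ 3) := by positivity
        calc η * cc G * YY G ≤ η * cc G * (e * r * (4 * s0 + 4e12 * Ψ G / s0 ^ 3)) :=
              mul_le_mul_of_nonneg_left hY2 (by positivity)
          _ = η * (cc G * e) * (r * (4 * s0 + 4e12 * Ψ G / s0 ^ 3)) := by ring
          _ ≤ _ := mul_le_mul_of_nonneg_right (mul_le_mul_of_nonneg_left hcT hη.le) b2
      have hd2 : r / (e - 3) ≤ g e - g (e - 3) := by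
        have := r4_step e0 e he0p (by linarith only [he3, he00])
        rw [hg, hr]
        dsimp only
        linarith only [this]
      have hd3 : 24 * n * T / (e - 3) ^ 2 ≤ T * (u e - u (e - 3)) := by
        have b1 : u e - u (e - 3) = 48 * n / (e * (e - 3)) := by
          rw [hu]
          field_simp
          ring
        rw [b1, mul_div_assoc', div_le_div_iff₀ (by positivity) (by positivity)]
        have b2 : e ≤ 2 * (e - 3) := by linarith only [he3, he00]
        have b3 : 0 ≤ 24 * n * T * (e - 3) := by positivity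
        nlinarith only [mul_le_mul_of_nonneg_left b2 b3]
      have hsum : ∑ t ∈ triangles G, W (removeTriangle G t) =
          (∑ t ∈ triangles G, QD η (removeTriangle G t) + T * (α * g (e - 3) + u (e - 3)) +
            (η ^ 2 + β * g (e - 3)) * ∑ t ∈ triangles G, Ψ (removeTriangle G t)) / η ^ 2 := by
        rw [Finset.mul_sum, hT, ← nsmul_eq_mul, ← Finset.sum_const, ← Finset.sum_add_distrib,
          ← Finset.sum_add_distrib, Finset.sum_div]
        refine Finset.sum_congr rfl fun t ht => ?_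
        rw [hW]
        dsimp only
        rw [numEdges_remove_real G t ht, ← he]
        ring
      rw [hsum, ← hT, hW]
      dsimp only
      rw [← he, ← mul_div_assoc]
      apply div_le_div_of_nonneg_right _ hη2.le
      have c1 := hg0 _ he3
      have c2 : (η ^ 2 + β * g (e - 3)) * ∑ t ∈ triangles G, Ψ (removeTriangle G t) ≤
          (η ^ 2 + β * g (e - 3)) * (T * Ψ G) :=
        mul_le_mul_of_nonneg_left h1 (by positivity)
      have c3 : T * (r / (e - 3) * (α + β * Ψ G)) ≤ T * ((g e - g (e - 3)) * (α + β * Ψ G)) :=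
        mul_le_mul_of_nonneg_left (mul_le_mul_of_nonneg_right hd2 (by positivity)) hT0
      have c4 : T * (QD η G + α * g e + u e + (η ^ 2 + β * g e) * Ψ G) =
          T * QD η G + T * ((g e - g (e - 3)) * (α + β * Ψ G)) + T * (u e - u (e - 3)) +
          T * (α * g (e - 3) + u (e - 3)) + (η ^ 2 + β * g (e - 3)) * (T * Ψ G) := by ring
      rw [c4]
      linarith only [hQ, hd1, hd3, c2, c3]) k G0 hk
  refine hsup.trans ?_
  rw [hW]
  apply div_le_div_of_nonneg_right _ hη2.le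
  have hG0 : e1 ≤ numEdges G0 := by omega
  have a1 := hg2 _ (hle G0 hG0)
  have a2 := hΨ0 G0 hG0
  have a3 : u (numEdges G0) ≤ 16 * n / e0 := by
    rw [hu]
    dsimp only
    have : 0 ≤ 1 / (numEdges G0 : ℝ) := by positivity
    have e : 16 * (n:ℝ) / e0 = 16 * n * (1 / e0) := by ring
    rw [e]
    exact mul_le_mul_of_nonneg_left (by linarith only [this]) (by positivity)
  have a4 : α * g (numEdges G0) ≤ α * 2 := mul_le_mul_of_nonneg_left a1 hα0.le
  have a5 : (η ^ 2 + β * g (numEdges G0)) * Ψ G0 ≤ (η ^ 2 + β * 2) * Ψ G0 :=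
    mul_le_mul_of_nonneg_right (by
      have := mul_le_mul_of_nonneg_left a1 hβ0.le
      linarith only [this]) a2
  have e1 : β * 2 = 32e12 * η / s0 ^ 3 := by rw [hβ]; ring
  have e2 : α * 2 = 32 * η * s0 := by rw [hα]; ring
  rw [e1] at a5
  rw [e2] at a4
  linarith only [a3, a4, a5]

lemma QD_top (η : ℝ) (hη : 0 < η) (hn : 2 ≤ n) : QD η (⊤ : SimpleGraph (Fin n)) = 0 := by
  have hn2 : (2:ℝ) ≤ n := by exact_mod_cast hn
  have h1 : ∀ v, dl (⊤ : SimpleGraph (Fin n)) v = 0 := by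
    intro v
    have h2 : dg (⊤ : SimpleGraph (Fin n)) v = n - 1 := by
      have h3 : dg (⊤ : SimpleGraph (Fin n)) v = ∑ u, (1 - if u = v then (1:ℝ) else 0) := by
        unfold dg
        refine Finset.sum_congr rfl fun u _ => ?_
        by_cases h : u = v
        · rw [if_pos h, if_neg (by rw [h]; exact (⊤ : SimpleGraph (Fin n)).irrefl)]; norm_num
        · rw [if_neg h, if_pos ((SimpleGraph.top_adj v u).mpr (Ne.symm h))]; norm_num
      rw [h3, Finset.sum_sub_distrib]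
      simp
    unfold dl
    rw [h2, numEdges_top, choose_two_real]
    have h4 : (0:ℝ) < n - 1 := by linarith only [hn2]
    have h5 : (0:ℝ) < n := by linarith only [hn2]
    field_simp
    ring
  unfold QD
  rw [Finset.sum_eq_zero fun v _ => by
    rw [h1 v]
    unfold huber
    rw [if_pos (by simpa using hη.le)]
    norm_num, zero_div]

/-- at a constant level the degrees are nearly regular with probability close to one -/
theorem deg_event (η ε : ℝ) (hη : 0 < η) (hε : 0 < ε) :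
    ∃ K3 : ℝ, 1 ≤ K3 ∧ ∀ K1 : ℝ, K3 ≤ K1 → ∃ n1 : ℕ, ∀ n : ℕ, n1 ≤ n → ∀ e1 k1 : ℕ,
      n.choose 2 = e1 + 3 * k1 → K1 * (n : ℝ) ^ (3 / 2 : ℝ) ≤ e1 →
      (e1 : ℝ) ≤ 2 * K1 * (n : ℝ) ^ (3 / 2 : ℝ) →
      V (fun G => min 1 (QD η G / η ^ 2)) k1 (⊤ : SimpleGraph (Fin n)) ≤ ε := by
  obtain ⟨A, hA⟩ : ∃ A : ℝ, A = 1e53 := ⟨_, rfl⟩
  obtain ⟨C, hC⟩ : ∃ C : ℝ, C = 1e60 := ⟨_, rfl⟩
  obtain ⟨B, hB⟩ : ∃ B : ℝ, B = 4 * C := ⟨_, rfl⟩
  have hA1 : 1 ≤ A := by rw [hA]; norm_num
  have hA0 : 0 < A := by linarith only [hA1]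
  have hC0 : 0 < C := by rw [hC]; norm_num
  have hB0 : 0 < B := by rw [hB]; positivity
  have hAC0 : 0 < A * C := by positivity
  have hAκ : 1 ≤ A * (1e7 * (1e-30) ^ 2) := by rw [hA]; norm_num
  have hBnum : 65536 * B * (40000 / 1e-9) ≤ (1 / 1000) * 1e100 := by rw [hB, hC]; norm_num
  obtain ⟨s0, hs0⟩ : ∃ s0 : ℝ, s0 = min 1 (η * ε / 96) := ⟨_, rfl⟩
  have hs00 : 0 < s0 := by rw [hs0]; positivity
  have hs01 : s0 ≤ 1 := by rw [hs0]; exact min_le_left _ _
  have hs02 : s0 ≤ η * ε / 96 := by rw [hs0]; exact min_le_right _ _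
  obtain ⟨c, hc⟩ : ∃ c : ℝ, c = η ^ 2 + 32e12 * η / s0 ^ 3 := ⟨_, rfl⟩
  have hc0 : 0 < c := by rw [hc]; positivity
  obtain ⟨w, hw⟩ : ∃ w : ℝ, w = 6 * (A * C) * c / (ε * η ^ 2) := ⟨_, rfl⟩
  have hw0 : 0 < w := by rw [hw]; positivity
  refine ⟨1e51 + w, by linarith only [hw0, show (1:ℝ) ≤ 1e51 by norm_num], fun K1 hK1 => ?_⟩
  have hK1b : 1e51 ≤ K1 := by linarith only [hw0, hK1]
  have hK11 : 1 ≤ K1 := le_trans (by norm_num) hK1b
  have hK10 : 0 < K1 := by linarith only [hK11]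
  have hK1w : w ≤ K1 := by linarith only [hK1, show (0:ℝ) ≤ 1e51 by norm_num]
  have hK1sq : (1e100:ℝ) ≤ 4 * K1 ^ 2 := by
    have h1 : (1e51:ℝ) ^ 2 ≤ K1 ^ 2 := pow_le_pow_left₀ (by norm_num) hK1b 2
    have h2 : (1e100:ℝ) ≤ 4 * (1e51) ^ 2 := by norm_num
    linarith only [h1, h2]
  obtain ⟨z1, hz1⟩ : ∃ z1 : ℝ, z1 = 2 * 10 ^ 13 / (1e-40) ^ 8 := ⟨_, rfl⟩
  obtain ⟨z2, hz2⟩ : ∃ z2 : ℝ, z2 = (A * C + 256 * A * B + 2) * K1 ^ 2 * 4 / (A * C) := ⟨_, rfl⟩
  obtain ⟨z3, hz3⟩ : ∃ z3 : ℝ, z3 = 48 / (ε * η ^ 2) := ⟨_, rfl⟩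
  have hz10 : 0 ≤ z1 := by rw [hz1]; positivity
  have hz20 : 0 ≤ z2 := by rw [hz2]; positivity
  have hz30 : 0 ≤ z3 := by rw [hz3]; positivity
  obtain ⟨p0, hp0⟩ : ∃ p0 : ℝ, p0 = 2 + A * C + z1 + (2 * K1 + 3) + z2 + z3 := ⟨_, rfl⟩
  refine ⟨⌈p0 ^ 1200⌉₊ + 1000, fun n hn e1 k1 hk he1 he2 => ?_⟩
  obtain ⟨p, hpnn, hN⟩ := exists_p n
  have hbig : p0 ^ 1200 ≤ (n:ℝ) := by
    refine (Nat.le_ceil _).trans ?_
    have : ⌈p0 ^ 1200⌉₊ ≤ n := by omega
    exact_mod_cast this
  have hp := p_large n p p0 hpnn hN hbig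
  have hs : (n:ℝ) ^ (3 / 2 : ℝ) = p ^ 1800 := by
    rw [hN, ← Real.rpow_natCast p 1200, ← Real.rpow_mul hpnn, ← Real.rpow_natCast p 1800]
    norm_num
  rw [hs] at he1 he2
  have hp2 : 2 ≤ p := by linarith only [hp, hp0, hAC0, hz10, hz20, hz30, hK10]
  have hp1 : 1 ≤ p := by linarith only [hp2]
  have hpp : 0 < p := by linarith only [hp2]
  have hn1000 : 1000 ≤ n := by omega
  have hF := Fi.FHyp_FF (n := n) hn1000
  rw [← hC] at hF
  have hz2p : z2 ≤ p := by linarith only [hp, hp0, hAC0, hz10, hz30, hK10]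
  rw [hz2, div_le_iff₀ hAC0] at hz2p
  have hz1p : z1 ≤ p := by linarith only [hp, hp0, hAC0, hz20, hz30, hK10]
  rw [hz1] at hz1p
  have hz3p : z3 ≤ p := by linarith only [hp, hp0, hAC0, hz20, hz10, hK10]
  have hp18 : p ^ 1800 ≤ e1 := by
    have : 1 * p ^ 1800 ≤ K1 * p ^ 1800 := mul_le_mul_of_nonneg_right hK11 (by positivity)
    linarith only [this, he1]
  have he16 : (16:ℝ) ≤ e1 := by
    calc (16:ℝ) = 2 ^ 4 := by norm_num
      _ ≤ p ^ 4 := pow_le_pow_left₀ (by norm_num) hp2 4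
      _ ≤ p ^ 1800 := pow_le_pow_right₀ hp1 (by norm_num)
      _ ≤ e1 := hp18
  have hEs0 : (0:ℝ) < e1 := by linarith only [he16]
  have he10 : 10 ≤ e1 := by
    have : (10:ℝ) ≤ e1 := by linarith only [he16]
    exact_mod_cast this
  obtain ⟨M0, hM0⟩ : ∃ M0, M0 = A * C * ((n : ℝ) ^ 3) ^ 2 / (e1:ℝ) ^ 2 := ⟨_, rfl⟩
  obtain ⟨hNH, hP⟩ := NHyp_of n A B C 1e100 (1e7 * (1e-30) ^ 2) (40000 / 1e-9) 1e-40 1e-30 e1 M0 p
    K1 (by norm_num) hA0 hAκ hB0 hC0.le (by norm_num) (by norm_num)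
    hBnum hB.ge (by norm_num) (by norm_num) hK11 hK1sq hp2 hN he1 he2 hM0.ge
    (by linarith only [hp, hp0, hz10, hz20, hz30, hK10])
    hz1p (by linarith only [hp, hp0, hAC0, hz10, hz20, hz30])
  have hmain := deg_super η s0 hη hs00 hs01 (by omega : 0 < n) e1 he10
    (fun G => Phi M2.FC A B (A * C) e1 M0 1e-40 (p ^ 15) G / (e1:ℝ) ^ 2)
    (by
      intro G hG
      have h1 : (e1:ℝ) ≤ numEdges G := by exact_mod_cast hG
      have h2 := M2.F_le_Phi M2.FC hF.nonneg A B (A * C) e1 M0 1e-40 (p ^ 15) hA0 hB0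
        (by positivity) hEs0 hM0.ge (by omega) (by positivity) (by norm_num)
        (by linarith only [hNH.hEq]) G h1
      rw [div_mul_cancel₀ _ (by positivity)]
      refine le_trans ?_ h2
      have h3 : 0 ≤ √((e1:ℝ) * numEdges G) * M2.FC G :=
        mul_nonneg (Real.sqrt_nonneg _) (hF.nonneg G)
      rw [mul_assoc]
      exact le_mul_of_one_le_left h3 hA1)
    (by
      intro G hG
      have h1 : (e1:ℝ) ≤ numEdges G := by exact_mod_cast hG.le
      rcases Phi_step M2.FC A B C (A * C) 1e100 (1e7 * (1e-30) ^ 2) (40000 / 1e-9) 1e-40 1e-30 e1 M0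
        (p ^ 15) hF hNH G h1 with h4 | ⟨h4, h5⟩
      · left
        rw [le_div_iff₀ (by positivity), one_mul]
        exact (pow_le_pow_left₀ hEs0.le h1 2).trans h4
      · right
        refine ⟨h4, ?_⟩
        rw [← Finset.sum_div, ← mul_div_assoc]
        exact div_le_div_of_nonneg_right h5 (by positivity))
    k1 ⊤ (by rw [numEdges_top]; exact hk)
  refine hmain.trans ?_
  have htop := M2.top_bound n A B C K1 p M0 e1 hF (by omega) hA0 hB0 hC0 hp2 hN hEs0 hP hz1p hM0
    hK10 (by linarith only [hz2p]) he1 (by linarith only [he2])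
  rw [QD_top η hη (by omega), ← hc, div_le_iff₀ (by positivity)]
  have a1 : 32 * η * s0 ≤ ε * η ^ 2 / 3 := by
    have := mul_le_mul_of_nonneg_left hs02 (by positivity : 0 ≤ 32 * η)
    linarith only [this]
  have a2 : 16 * (n:ℝ) / e1 ≤ ε * η ^ 2 / 3 := by
    rw [div_le_iff₀ hEs0]
    rw [hz3, div_le_iff₀ (by positivity)] at hz3p
    have b1 : p * (n:ℝ) ≤ e1 := by
      refine le_trans ?_ hp18
      rw [hN, ← pow_succ']
      exact pow_le_pow_right₀ hp1 (by norm_num)
    have b2 : 0 < ε * η ^ 2 := by positivity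
    have b3 : (0:ℝ) ≤ n := Nat.cast_nonneg _
    nlinarith only [mul_le_mul_of_nonneg_left b1 b2.le, mul_le_mul_of_nonneg_right hz3p b3]
  have a3 : c * (2 * (A * C) / K1 ^ 4) ≤ ε * η ^ 2 / 3 := by
    rw [hw, div_le_iff₀ (by positivity)] at hK1w
    have b1 : K1 ≤ K1 ^ 4 := le_self_pow₀ hK11 (by norm_num)
    rw [← mul_div_assoc, div_le_iff₀ (by positivity)]
    have b2 : 0 < ε * η ^ 2 := by positivity
    nlinarith only [hK1w, mul_le_mul_of_nonneg_left b1 b2.le]
  have a4 := mul_le_mul_of_nonneg_left htop hc0.le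
  linarith only [a1, a2, a3, a4]

end Vale.Agent.N046
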