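import Vale.Agent.P046.Bdl.B4

/-!
The energy estimate for the cavity system, in mean absolute form: most marginals are close to the
reference value (the starting files only use the sum of the marginals).
-/

set_option linter.all false

open scoped Classical
open Finset

namespace Vale.Agent.N046

open Vale.Agent.P046.K

variable {α : Type*}

/-- the conclusion for fixed parameters -/
theorem final_core1 {V : Finset α} {H : Finset (Finset α)} {T ξ : ℝ} {q : α → ℝ → ℝ}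
    {p : Finset α → ℝ → ℝ} (hH : Hyp V H) (hS : Sys V H T ξ q p) (D k c1 Λ A η σm : ℝ)
    (hD : 0 < D) (hT : 0 ≤ T) (hk : 0 < k) (hk1 : k ≤ 1 / 100) (hξ0 : 0 ≤ ξ)
    (hξ : ξ * Real.exp T ≤ 1 / 2) (hσm : σm = Real.log (1 + 2 * D) / 2)
    (hkσ : k * σm ≤ 1 / 100) (hkη : k * σm ≤ η / 4) (hη : 0 < η)
    (hc1 : Real.exp (7 * T) * ((Real.exp (7 * T) / D) * (7 * σm) + ξ * T) ≤ c1) (hc1' : c1 ≤ 1)
    (hcZ : 3 * Real.exp (7 * T) ^ 2 / D ≤ 1 / 100000)
    (hcZ2 : 3 * Real.exp (7 * T) ^ 2 / D * (22 / 10 * σm) ≤ 1)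
    (hξB : ξ * T * (1 + 2 * D) ^ 4 ≤ 1) (hΛ0 : 0 ≤ Λ)
    (hΛ : ∑ v ∈ V, (mz (zd H D v) + mw (wd H D v)) ≤ V.card * Λ)
    (hA : 13075 * (1 + σm) ^ 4 * Λ / k ^ 4 + 120 * c1 ^ 2 + 3 * (ξ * T * (1 + 2 * D) ^ 4) ≤ A)
    (hAη : (103 / 100) * A * (1 + 2 * D) ^ (8 / 5 : ℝ) ≤ (η / 2) ^ 2)
    (t : ℝ) (ht : t ∈ Set.Icc 0 T) :
    ∑ v ∈ V, |q v t - 1 / √(Sf D t)| ≤ η * (V.card / √(Sf D t)) := by
  have hσm0 : 0 ≤ σm := by
    rw [hσm]
    have := Real.log_nonneg (show (1:ℝ) ≤ 1 + 2 * D by linarith only [hD])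
    linarith only [this]
  have hsgm : ∀ t ∈ Set.Icc 0 T, sg D t ≤ σm := fun t ht => by
    rw [hσm]; exact sg_le D t hD ht.1
  have hk4 : 0 < k ^ 4 := by positivity
  have hkσ' : ∀ t ∈ Set.Icc 0 T, k * sg D t ≤ 1 / 100 := fun t ht =>
    (mul_le_mul_of_nonneg_left (hsgm t ht) hk.le).trans hkσ
  have hN : (0:ℝ) ≤ V.card := Nat.cast_nonneg _
  have hc10 : 0 ≤ c1 := le_trans (by (clear * - hD hσm0 hξ0 hT; positivity)) hc1
  have hXi : 0 ≤ ξ * T * (1 + 2 * D) ^ 4 := by (clear * - hξ0 hT hD; positivity)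
  have hA0 : 0 ≤ A := le_trans (by (clear * - hσm0 hΛ0 hk hξ0 hT hD; positivity)) hA
  -- energy bound
  have hE := energy_bound hH hS D k (130 * (1 + σm) ^ 4 * (V.card * Λ) / k ^ 4) c1 (1 + 2 * D)
    (V.card * A) hD hT hk.le hk1 hξ0 hξ hkσ'
    (fun s hs => by
      rw [le_div_iff₀ hk4, mul_comm]
      refine (sum_g V H hH D k (sg D s) σm hD hk hk1 (sg_nonneg D s hD hs.1) (hsgm s hs)
        (hkσ' s hs)).trans ?_
      exact mul_le_mul_of_nonneg_left hΛ (by positivity))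
    (fun s hs => by
      refine le_trans ?_ hc1
      apply mul_le_mul_of_nonneg_left _ (Real.exp_pos _).le
      have : Real.exp (7 * T) / D * (7 * sg D s) ≤ Real.exp (7 * T) / D * (7 * σm) := by
        apply mul_le_mul_of_nonneg_left _ (by positivity)
        linarith only [hsgm, hs, hsgm s hs]
      linarith only [this])
    hc1' hcZ
    (fun s hs => by
      refine le_trans ?_ hcZ2
      apply mul_le_mul_of_nonneg_left _ (by positivity)
      linarith only [hsgm s hs])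
    (fun s hs => by
      have h1 := hsgm s hs
      have h0 := sg_nonneg D s hD hs.1
      have h2 : (1 + k) * sg D s ≤ 2 * σm := by nlinarith only [hσm0, h1, hk, hk1]
      calc Real.exp ((1 + k) * sg D s) ≤ Real.exp (2 * σm) := Real.exp_le_exp.mpr h2
        _ = 1 + 2 * D := by
            rw [hσm, mul_div_cancel₀ _ (by norm_num : (2:ℝ) ≠ 0),
              Real.exp_log (by linarith only [hD, hk, hk1])])
    hξB
    (by
      have h1 := irr_sum V H D k hk (by linarith only [hk, hk1])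
      have h2 : ∑ v ∈ V, mz (zd H D v) ≤ V.card * Λ := by
        refine le_trans (Finset.sum_le_sum fun v _ => ?_) hΛ
        linarith only [mw_nonneg (wd H D v)]
      have h3 : ∑ v ∈ irr V H D k, (1 + (1 + zd H D v)) ≤ 3 * (V.card * Λ) / k ^ 4 := by
        rw [le_div_iff₀ hk4, mul_comm]
        linarith only [h1, h2]
      have h4 : 1 ≤ (1 + σm) ^ 4 := one_le_pow₀ (by linarith only [hσm0])
      have h5 : 0 ≤ V.card * Λ / k ^ 4 := by (clear * - hΛ0 hk; positivity)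
      have h6 : V.card * Λ / k ^ 4 ≤ (1 + σm) ^ 4 * (V.card * Λ / k ^ 4) := by nlinarith only [h4, h5]
      have h7 := mul_le_mul_of_nonneg_left hA hN
      have e1 : 130 * (1 + σm) ^ 4 * (V.card * Λ) / k ^ 4 =
        130 * ((1 + σm) ^ 4 * (V.card * Λ / k ^ 4)) := by ring
      have e2 : 3 * (V.card * Λ) / k ^ 4 = 3 * (V.card * Λ / k ^ 4) := by ring
      have e3 : (V.card : ℝ) * (13075 * (1 + σm) ^ 4 * Λ / k ^ 4 + 120 * c1 ^ 2 +
          3 * (ξ * T * (1 + 2 * D) ^ 4)) = 13075 * ((1 + σm) ^ 4 * (V.card * Λ / k ^ 4)) +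
          V.card * (120 * c1 ^ 2 + 3 * (ξ * T * (1 + 2 * D) ^ 4)) := by ring
      rw [e2] at h3
      rw [e3] at h7
      rw [e1]
      linarith only [h3, h6, h7])
    t ht
  have ht0 := ht.1
  have hσ0 := sg_nonneg D t hD ht0
  obtain ⟨σ, hσ⟩ : ∃ σ, σ = sg D t := ⟨_, rfl⟩
  rw [div_eq_mul_one_div (V.card : ℝ), ← exp_neg_sg D t hD ht0]
  have hkσt := hkσ' t ht
  rw [← hσ] at hE hσ0 hkσt ⊢
  have hexp := Real.exp_pos (-σ)
  -- reference sum
  have hQ : ∑ v ∈ V, qh H D k σ v ≤ (103 / 100) * (V.card * Real.exp (-σ)) := by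
    calc ∑ v ∈ V, qh H D k σ v ≤ ∑ _v ∈ V, (103 / 100) * Real.exp (-σ) :=
          Finset.sum_le_sum fun v _ => (qh_compare H D k σ hk.le hσ0 hkσt v).2
      _ = _ := by rw [Finset.sum_const, nsmul_eq_mul]; ring
  have hQ2 : ∑ v ∈ V, |qh H D k σ v - Real.exp (-σ)| ≤
      (η / 2) * (V.card * Real.exp (-σ)) := by
    calc ∑ v ∈ V, |qh H D k σ v - Real.exp (-σ)| ≤ ∑ _v ∈ V, (η / 2) * Real.exp (-σ) := by
          refine Finset.sum_le_sum fun v _ => ?_
          have hz := abs_zh H D k hk.le v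
          have e2 : qh H D k σ v - Real.exp (-σ) =
              Real.exp (-σ) * (Real.exp (-(zh H D k v * σ)) - 1) := by
            unfold qh
            rw [mul_sub, ← Real.exp_add, mul_one]
            congr 2
            ring
          have h1 : |-(zh H D k v * σ)| ≤ k * σ := by
            rw [abs_neg, abs_mul, abs_of_nonneg hσ0]
            exact mul_le_mul_of_nonneg_right hz hσ0
          have h2 := abs_exp_sub_one (-(zh H D k v * σ)) (by linarith only [hkσt, h1])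
          have h3 : k * σ ≤ k * σm := mul_le_mul_of_nonneg_left (by rw [hσ]; exact hsgm t ht) hk.le
          rw [e2, abs_mul, abs_of_pos hexp, mul_comm]
          apply mul_le_mul_of_nonneg_right _ hexp.le
          linarith only [hkη, h1, h2, h3]
      _ = _ := by rw [Finset.sum_const, nsmul_eq_mul]; ring
  -- Cauchy-Schwarz
  have hCS : (∑ v ∈ V, |q v t - qh H D k σ v|) ^ 2 ≤
      (∑ v ∈ V, qh H D k σ v) * ∑ v ∈ V, (q v t - qh H D k σ v) ^ 2 / qh H D k σ v := by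
    apply Finset.sum_sq_le_sum_mul_sum_of_sq_le_mul
    · exact fun v _ => (qh_pos H D k σ v).le
    · exact fun v _ => div_nonneg (sq_nonneg _) (qh_pos H D k σ v).le
    · intro v _
      have := qh_pos H D k σ v
      apply le_of_eq
      rw [sq_abs]
      field_simp
  have hEE : ∑ v ∈ V, (q v t - qh H D k σ v) ^ 2 / qh H D k σ v = EE V H D k q t := by
    unfold EE; rw [hσ]
  rw [hEE] at hCS
  have hEE0 := EE_nonneg (V := V) (H := H) (q := q) D k t
  have hSf : Real.exp (32 / 10 * σ) ≤ (1 + 2 * D) ^ (8 / 5 : ℝ) := by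
    have h1 : Real.exp (32 / 10 * σ) = (Sf D t) ^ (8 / 5 : ℝ) := by
      rw [← exp_two_sg D t hD ht0, ← Real.exp_mul, ← hσ]
      congr 1; ring
    rw [h1]
    exact Real.rpow_le_rpow (by linarith only [hk, hk1, hD, ht0, Sf_ge D t hD ht0]) (Sf_le D t hD) (by norm_num)
  have hmain : (∑ v ∈ V, |q v t - qh H D k σ v|) ^ 2 ≤ ((η / 2) * (V.card * Real.exp (-σ))) ^ 2 := by
    have e3 : Real.exp (22 / 10 * σ) = Real.exp (-σ) * Real.exp (32 / 10 * σ) := by
      rw [← Real.exp_add]; congr 1; ring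
    calc (∑ v ∈ V, |q v t - qh H D k σ v|) ^ 2
        ≤ ((103 / 100) * (V.card * Real.exp (-σ))) * (V.card * A * Real.exp (22 / 10 * σ)) :=
          hCS.trans (mul_le_mul hQ hE hEE0 (by (clear * -; positivity)))
      _ = ((103 / 100) * A * Real.exp (32 / 10 * σ)) * (V.card * Real.exp (-σ)) ^ 2 := by
          rw [e3]; ring
      _ ≤ ((103 / 100) * A * (1 + 2 * D) ^ (8 / 5 : ℝ)) * (V.card * Real.exp (-σ)) ^ 2 := by
          apply mul_le_mul_of_nonneg_right _ (sq_nonneg _)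
          exact mul_le_mul_of_nonneg_left hSf (by positivity)
      _ ≤ (η / 2) ^ 2 * (V.card * Real.exp (-σ)) ^ 2 :=
          mul_le_mul_of_nonneg_right hAη (sq_nonneg _)
      _ = _ := by ring
  have habs := abs_le_of_sq_le_sq hmain (by (clear * - hη; positivity))
  have hab := (abs_le.mp habs).2
  have htri : ∑ v ∈ V, |q v t - Real.exp (-σ)| ≤
      ∑ v ∈ V, |q v t - qh H D k σ v| + ∑ v ∈ V, |qh H D k σ v - Real.exp (-σ)| := by
    rw [← Finset.sum_add_distrib]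
    exact Finset.sum_le_sum fun v _ => abs_sub_le _ _ _
  linarith only [hab, hQ2, htri]

/-- application of `final_core` -/
lemma energy_aux1 {α : Type*} {V : Finset α} {H : Finset (Finset α)} {T ξ : ℝ} {q : α → ℝ → ℝ}
    {p : Finset α → ℝ → ℝ} (hH : Hyp V H) (hS : Sys V H T ξ q p) (s D D1 K η : ℝ)
    (hK : K = Real.exp (7 * T)) (hT : 0 < T) (hη : 0 < η) (hDs : D = s ^ 100)
    (hDD1 : D ≤ D1) (hs : SCond s K η) (hx : XCond ξ D1 K T η)
    (hΛ : ∑ v ∈ V, (mz (zd H D v) + mw (wd H D v)) ≤ V.card * (1 / s ^ 190))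
    (t : ℝ) (ht : t ∈ Set.Icc 0 T) :
    ∑ v ∈ V, |q v t - 1 / √(Sf D t)| ≤ η * (V.card / √(Sf D t)) := by
  have hK0 : 0 < K := by rw [hK]; exact Real.exp_pos _
  have hs1 := hs.one
  have hspos : 0 < s := by linarith only [hs1]
  have hD1 : 1 ≤ D := by rw [hDs]; exact one_le_pow₀ hs1
  have hD0 : 0 < D := by linarith only [hD1]
  have hξ0 := hx.pos
  obtain ⟨σm, hσm⟩ : ∃ σm : ℝ, σm = Real.log (1 + 2 * D) / 2 := ⟨_, rfl⟩
  have hσm1 : σm ≤ 150 * s := by rw [hσm]; exact log_bound s D hs1 hDs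
  have hσm0 : 0 ≤ σm := by
    rw [hσm]
    have := Real.log_nonneg (show (1:ℝ) ≤ 1 + 2 * D by linarith only [hD1])
    linarith only [this]
  have hkk : (1 / s ^ 2) * σm ≤ 150 / s := by
    calc (1 / s ^ 2) * σm ≤ (1 / s ^ 2) * (150 * s) :=
          mul_le_mul_of_nonneg_left hσm1 (by positivity)
      _ = 150 / s := by field_simp
  have hP : 0 ≤ (1 + 2 * D) ^ (8 / 5 : ℝ) := by (clear * - hD1; positivity)
  have hX4 : (1 + 2 * D) ^ 4 ≤ (1 + 2 * D1) ^ 4 := pow_le_pow_left₀ (by positivity) (by linarith only [hDD1]) 4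
  obtain ⟨a, ha⟩ : ∃ a : ℝ, a = K * ((K / D) * (7 * σm)) := ⟨_, rfl⟩
  have ha0 : 0 ≤ a := by rw [ha]; (clear * - hK0 hD1 hσm0; positivity)
  have ha1 : a ≤ 1050 * K ^ 2 / s ^ 99 := by
    rw [ha]
    calc K * ((K / D) * (7 * σm)) ≤ K * ((K / D) * (7 * (150 * s))) := by
          apply mul_le_mul_of_nonneg_left _ hK0.le
          apply mul_le_mul_of_nonneg_left _ (by positivity)
          linarith only [hσm1]
      _ = 1050 * K ^ 2 / s ^ 99 := by
          rw [hDs]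
          field_simp
          ring
  have g1 := g1_bound s σm 13075 hs1 hσm0 hσm1 (by norm_num)
  have g2 := g2_bound s a K T ξ (1050 * K ^ 2) hs1 ha0 ha1 hξ0.le hx.one
  have hfin := fin_bound (13075 * (1 + σm) ^ 4 * (1 / s ^ 190) / (1 / s ^ 2) ^ 4 +
    120 * (a + K * T * ξ) ^ 2 + 3 * (ξ * T * (1 + 2 * D) ^ 4)) (13075 * 151 ^ 4 / s ^ 178)
    (240 * (1050 * K ^ 2) ^ 2 / s ^ 198)
    (240 * K ^ 2 * T ^ 2 * ξ + 3 * (ξ * T * (1 + 2 * D) ^ 4)) ((1 + 2 * D) ^ (8 / 5 : ℝ)) η hP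
    (by linarith only [g1, g2])
    (term_bound s _ (13075 * 151 ^ 4) _ 160 178 17 hs1 (S2_bound s D hs1 hDs) (by norm_num)
      (by norm_num) hs.f)
    (term_bound s _ (240 * (1050 * K ^ 2) ^ 2) _ 160 198 37 hs1 (S2_bound s D hs1 hDs)
      (by positivity) (by norm_num) hs.g)
    (xi_bound D D1 K T ξ _ η hD0 hDD1 hT hξ0 hη hP (S3_bound D D1 hD0 hDD1) hx.d)
  exact final_core1 hH hS D (1 / s ^ 2) (a + K * T * ξ) (1 / s ^ 190) _ η σm hD0 hT.le
    (by positivity)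
    (by
      have := pow_div_le 1 s (by norm_num) hs1 2 (by norm_num)
      refine this.trans ?_
      rw [div_le_div_iff₀ hspos (by norm_num)]
      linarith only [hs, hs.hundred])
    hξ0.le
    (by linarith only [hx, hx.a])
    hσm (hkk.trans hs.a) (hkk.trans hs.b) hη
    (by rw [← hK, ha]; apply le_of_eq; ring)
    (by
      have h1 := ha1.trans ((pow_div_le _ s (by positivity) hs1 99 (by norm_num)).trans hs.e)
      linarith only [h1, hx, hx.c])
    (by
      rw [← hK, hDs]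
      exact (pow_div_le _ s (by positivity) hs1 100 (by norm_num)).trans hs.c)
    (by
      rw [← hK]
      calc 3 * K ^ 2 / D * (22 / 10 * σm) ≤ 3 * K ^ 2 / D * (22 / 10 * (150 * s)) := by
            apply mul_le_mul_of_nonneg_left _ (by positivity)
            linarith only [hσm1]
        _ = 990 * K ^ 2 / s ^ 99 := by
            rw [hDs]
            field_simp
            ring
        _ ≤ 1000 * K ^ 2 / s ^ 99 := by
            apply div_le_div_of_nonneg_right _ (by positivity)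
            have : 0 ≤ K ^ 2 := by positivity
            linarith only [this]
        _ ≤ 1 := (pow_div_le _ s (by positivity) hs1 99 (by norm_num)).trans hs.d)
    (by
      have h2 : ξ * T * (1 + 2 * D) ^ 4 ≤ ξ * T * (1 + 2 * D1) ^ 4 :=
        mul_le_mul_of_nonneg_left hX4 (by positivity)
      linarith only [h2, hx, hx.b])
    (by positivity)
    hΛ
    le_rfl
    hfin t ht

/-- the energy estimate in mean absolute form -/
def Energy1 : Prop :=
  ∀ T η : ℝ, 0 < T → 0 < η → ∃ D₀ : ℝ, 1 ≤ D₀ ∧ ∀ D₁ : ℝ, D₀ ≤ D₁ → ∃ ξ : ℝ, 0 < ξ ∧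
    ∀ D ∈ Set.Icc D₀ D₁,
    ∀ (α : Type) (V : Finset α) (H : Finset (Finset α)), Hyp V H →
    ∀ (q : α → ℝ → ℝ) (p : Finset α → ℝ → ℝ), Sys V H T ξ q p →
    ∑ v ∈ V, (min (zd H D v ^ 4) (zd H D v ^ 2) + min (wd H D v ^ 2) |wd H D v|) ≤
      V.card * D ^ (-(19 / 10 : ℝ)) →
    ∀ t ∈ Set.Icc (0:ℝ) T,
    ∑ v ∈ V, |q v t - 1 / √(1 + 2 * D * (1 - Real.exp (-t)))| ≤
      η * (V.card / √(1 + 2 * D * (1 - Real.exp (-t))))

theorem energy1 : Energy1 := by
  intro T η hT hη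
  obtain ⟨K, hK⟩ : ∃ K, K = Real.exp (7 * T) := ⟨_, rfl⟩
  have hK0 : 0 < K := by rw [hK]; exact Real.exp_pos _
  obtain ⟨s0, hs01, hs0⟩ := exists_scond K η hη
  refine ⟨s0 ^ 100, one_le_pow₀ hs01, ?_⟩
  intro D1 hD1
  obtain ⟨ξ, hξ⟩ := exists_xcond D1 K T η ((one_le_pow₀ hs01).trans hD1) hK0 hT
  refine ⟨ξ, hξ.pos, ?_⟩
  intro D hD α V H hH q p hS hsum t ht
  have hDD : s0 ^ 100 ≤ D := hD.1
  have hDD1 : D ≤ D1 := hD.2
  have hD0 : 0 < D := lt_of_lt_of_le (by positivity) hDD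
  obtain ⟨s, hs⟩ : ∃ s : ℝ, s = D ^ (1 / 100 : ℝ) := ⟨_, rfl⟩
  have hDs : D = s ^ 100 := by
    rw [hs, ← Real.rpow_natCast, ← Real.rpow_mul hD0.le]; norm_num
  have hss0 : s0 ≤ s := by
    have h1 : s0 = (s0 ^ 100) ^ (1 / 100 : ℝ) := by
      rw [← Real.rpow_natCast, ← Real.rpow_mul (by linarith only [hs01])]; norm_num
    rw [h1, hs]
    exact Real.rpow_le_rpow (by positivity) hDD (by norm_num)
  have hspos : 0 < s := by linarith only [hs01, hss0]
  have hΛs : D ^ (-(19 / 10 : ℝ)) = 1 / s ^ 190 := by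
    rw [Real.rpow_neg hD0.le, one_div]
    congr 1
    rw [hDs, ← Real.rpow_natCast, ← Real.rpow_natCast, ← Real.rpow_mul hspos.le]
    norm_num
  rw [hΛs] at hsum
  exact energy_aux1 hH hS s D D1 K η hK hT hη hDs hDD1 (hs0 s hss0) hξ hsum t ht

end Vale.Agent.N046
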