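import Vale.Agent.P046.Bdl.B5
import Vale.Agent.N046.En

/-!
Greedy matching in a hypergraph of bounded degree: the number of survivors in each set of a
family of vertex sets which covers every vertex at most twice.
-/

set_option linter.all false

open scoped Classical
open Finset

namespace Vale.Agent.N046

open Vale.Agent.P046.S
open Vale.Agent.P046.K (Hyp Sys zd wd)

variable {α : Type} [Fintype α]

/-- number of elements of `S` in `A` -/
noncomputable def cnt (S A : Finset α) : ℝ := ∑ v ∈ S, mon {v} A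

/-- every element of `V` is in at most two of the sets, the others in none -/
def Two {ι : Type} [Fintype ι] (V : Finset α) (S : ι → Finset α) : Prop :=
  ∀ g : α → ℝ, (∀ a, 0 ≤ g a) → ∑ i, ∑ a ∈ S i, g a ≤ 2 * ∑ a ∈ V, g a

/-- half of the total deviation of the counts -/
noncomputable def Fam {ι : Type} [Fintype ι] (S : ι → Finset α) (y : ι → ℝ) (A : Finset α) : ℝ :=
  (1 / 2) * ∑ i, |cnt (S i) A - y i|

lemma mon_single (v : α) (A : Finset α) : mon {v} A = if v ∈ A then 1 else 0 := by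
  unfold mon
  simp only [Finset.singleton_subset_iff]

lemma sum_mon_diff (V : Finset α) (A : Finset α × Finset α) :
    ∑ v ∈ V, |mon {v} A.1 - mon {v} A.2| ≤ dN A := by
  have h1 : ∑ v ∈ V, |mon {v} A.1 - mon {v} A.2| ≤ ∑ v, |mon {v} A.1 - mon {v} A.2| :=
    Finset.sum_le_sum_of_subset_of_nonneg (Finset.subset_univ _) fun _ _ _ => abs_nonneg _
  refine h1.trans (le_of_eq ?_)
  unfold dN
  rw [card_eq_sum_ite _ Finset.univ (Finset.subset_univ _),
    card_eq_sum_ite (A.2 \ A.1) Finset.univ (Finset.subset_univ _), ← Finset.sum_add_distrib]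
  refine Finset.sum_congr rfl fun v _ => ?_
  rw [mon_single, mon_single]
  by_cases h1 : v ∈ A.1 <;> by_cases h2 : v ∈ A.2 <;> simp [h1, h2]

lemma Fam_lip {ι : Type} [Fintype ι] (V : Finset α) (S : ι → Finset α) (hS : Two V S)
    (y : ι → ℝ) (A : Finset α × Finset α) : |Fam S y A.1 - Fam S y A.2| ≤ dN A := by
  have h1 : ∀ i, |(|cnt (S i) A.1 - y i|) - (|cnt (S i) A.2 - y i|)| ≤
      ∑ v ∈ S i, |mon {v} A.1 - mon {v} A.2| := by
    intro i
    refine (abs_abs_sub_abs_le_abs_sub _ _).trans ?_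
    have e : cnt (S i) A.1 - y i - (cnt (S i) A.2 - y i) =
        ∑ v ∈ S i, (mon {v} A.1 - mon {v} A.2) := by
      rw [Finset.sum_sub_distrib]
      unfold cnt
      ring
    rw [e]
    exact Finset.abs_sum_le_sum_abs _ _
  have h2 := hS (fun v => |mon {v} A.1 - mon {v} A.2|) (fun _ => abs_nonneg _)
  have h3 := sum_mon_diff V A
  have h4 : |(∑ i, |cnt (S i) A.1 - y i|) - (∑ i, |cnt (S i) A.2 - y i|)| ≤
      ∑ i, ∑ v ∈ S i, |mon {v} A.1 - mon {v} A.2| := by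
    rw [← Finset.sum_sub_distrib]
    exact (Finset.abs_sum_le_sum_abs _ _).trans (Finset.sum_le_sum fun i _ => h1 i)
  unfold Fam
  rw [← mul_sub, abs_mul, abs_of_pos (by norm_num : (0:ℝ) < 1 / 2)]
  linarith only [h2, h3, h4]

lemma P_cnt (H : Finset (Finset α)) (V S : Finset α) (t : ℝ) :
    P (LH H) t (cnt S) V = ∑ v ∈ S, P (LH H) t (mon {v}) V := by
  have e : cnt S = ∑ v ∈ S, mon ({v} : Finset α) := by
    ext A
    rw [Finset.sum_apply]
    rfl
  rw [e, map_sum, Finset.sum_apply]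

lemma mon_pair (u v : α) (A : Finset α) : mon {u, v} A = mon {u} A * mon {v} A := by
  rw [mon_single, mon_single]
  unfold mon
  by_cases hu : u ∈ A
  · by_cases hv : v ∈ A
    · rw [if_pos hu, if_pos hv, if_pos]
      · norm_num
      · intro x hx
        rw [Finset.mem_insert, Finset.mem_singleton] at hx
        rcases hx with hx | hx
        · rw [hx]; exact hu
        · rw [hx]; exact hv
    · rw [if_neg hv, if_neg (show ¬ ({u, v} : Finset α) ⊆ A from fun h => hv (h (by simp)))]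
      ring
  · rw [if_neg hu, if_neg (show ¬ ({u, v} : Finset α) ⊆ A from fun h => hu (h (by simp)))]
    ring

lemma P_cnt_sq (H : Finset (Finset α)) (V S : Finset α) (t : ℝ) :
    P (LH H) t (fun A => cnt S A ^ 2) V = ∑ u ∈ S, ∑ v ∈ S, P (LH H) t (mon {u, v}) V := by
  have e : (fun A : Finset α => cnt S A ^ 2) = ∑ u ∈ S, ∑ v ∈ S, mon ({u, v} : Finset α) := by
    ext A
    simp only [Finset.sum_apply]
    unfold cnt
    rw [sq, Finset.sum_mul_sum]
    exact Finset.sum_congr rfl fun u _ => Finset.sum_congr rfl fun v _ => (mon_pair u v A).symm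
  rw [e]
  simp only [map_sum, Finset.sum_apply]

/-- variance of the number of survivors in a set -/
theorem var_cnt (H : Finset (Finset α)) (V S : Finset α) (Δ R : ℕ) (hV : Hyp V H)
    (hΔ : MaxDeg H Δ) (t : ℝ) (ht : 0 ≤ t) (m : ℝ) (hm : m = ∑ v ∈ S, P (LH H) t (mon {v}) V) :
    P (LH H) t (fun A => (cnt S A - m) ^ 2) V ≤
      3 * locErr Δ t 2 R * (S.card : ℝ) ^ 2 + (1 + 3 * Δ : ℝ) ^ (2 * R + 1) * S.card := by
  have hlin := lin_of_hyp hV
  have e1 : (fun A : Finset α => (cnt S A - m) ^ 2) =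
      (fun A => cnt S A ^ 2) + (-(2 * m)) • (cnt S) + fun _ => m ^ 2 := by
    ext A
    simp only [Pi.add_apply, Pi.smul_apply, smul_eq_mul]
    ring
  have e2 : P (LH H) t (fun A => (cnt S A - m) ^ 2) V =
      P (LH H) t (fun A => cnt S A ^ 2) V - 2 * m * P (LH H) t (cnt S) V + m ^ 2 := by
    rw [e1, map_add, map_add, map_smul]
    simp only [Pi.add_apply, Pi.smul_apply, smul_eq_mul, P_one]
    ring
  rw [e2, P_cnt, P_cnt_sq, ← hm]
  have e3 : m ^ 2 = ∑ u ∈ S, ∑ v ∈ S, P (LH H) t (mon {u}) V * P (LH H) t (mon {v}) V := by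
    rw [hm, sq, Finset.sum_mul_sum]
  have e4 : ∑ u ∈ S, ∑ v ∈ S, P (LH H) t (mon {u, v}) V - 2 * m * m + m ^ 2 =
      ∑ u ∈ S, ∑ v ∈ S, (P (LH H) t (mon {u, v}) V -
        P (LH H) t (mon {u}) V * P (LH H) t (mon {v}) V) := by
    simp only [Finset.sum_sub_distrib]
    rw [← e3]
    ring
  rw [e4]
  have hle := locErr_nonneg Δ t ht 2 R
  have hterm : ∀ u ∈ S, ∀ v ∈ S, P (LH H) t (mon {u, v}) V -
        P (LH H) t (mon {u}) V * P (LH H) t (mon {v}) V ≤
        3 * locErr Δ t 2 R + if ¬ Disjoint (nbh H {u} (R + 1)) (nbh H {v} R) then 1 else 0 := by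
    intro u _ v _
    have h2 := P_mon_nonneg H t ht {u} V
    have h3 := P_mon_nonneg H t ht {v} V
    have h4 := mul_nonneg h2 h3
    by_cases hd : Disjoint (nbh H {u} (R + 1)) (nbh H {v} R)
    · rw [if_neg (fun h => h hd), add_zero]
      by_cases huv' : u ∈ V ∧ v ∈ V
      · have huv : u ≠ v := by
          intro h
          rw [h] at hd
          have h1 : v ∈ nbh H {v} (R + 1) := nbh_mono H {v} (Nat.zero_le _) (by simp [nbh])
          have h2 : v ∈ nbh H {v} R := nbh_mono H {v} (Nat.zero_le _) (by simp [nbh])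
          exact Finset.disjoint_left.mp hd h1 h2
        exact (le_abs_self _).trans (indep_approx H V Δ R hV hΔ u v huv'.1 huv'.2 huv hd t ht)
      · rw [P_mon_outside H V {u, v} (fun h => huv' ⟨h (by simp), h (by simp)⟩) t]
        linarith only [hle, h4]
    · rw [if_pos hd]
      have h1 := P_mon_le_one H t ht {u, v} V
      linarith only [h1, h4, hle]
  refine (Finset.sum_le_sum fun u hu => Finset.sum_le_sum fun v hv => hterm u hu v hv).trans ?_
  simp only [Finset.sum_add_distrib, Finset.sum_const, nsmul_eq_mul]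
  have hnear : ∑ u ∈ S, ∑ v ∈ S,
      (if ¬ Disjoint (nbh H {u} (R + 1)) (nbh H {v} R) then (1:ℝ) else 0) ≤
      (1 + 3 * Δ : ℝ) ^ (2 * R + 1) * S.card := by
    have h1 : ∀ u ∈ S, ∑ v ∈ S,
        (if ¬ Disjoint (nbh H {u} (R + 1)) (nbh H {v} R) then (1:ℝ) else 0) ≤
        (1 + 3 * Δ : ℝ) ^ (2 * R + 1) := by
      intro u _
      rw [← Finset.sum_filter, Finset.sum_const, nsmul_eq_mul, mul_one]
      have h2 : S.filter (fun v => ¬ Disjoint (nbh H {u} (R + 1)) (nbh H {v} R)) ⊆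
          nbh H {u} (2 * R + 1) := by
        intro v hv
        rw [Finset.mem_filter, Finset.not_disjoint_iff] at hv
        obtain ⟨_, x, hx1, hx2⟩ := hv
        have h3 := nbh_symm H x v R hx2
        have h4 := nbh_mono_set H (Finset.singleton_subset_iff.mpr hx1) R h3
        rw [nbh_nbh] at h4
        have e5 : R + 1 + R = 2 * R + 1 := by ring
        rw [e5] at h4
        exact h4
      have h5 := (Finset.card_le_card h2).trans (nbh_card H hlin Δ hΔ {u} (2 * R + 1))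
      rw [Finset.card_singleton, mul_one] at h5
      exact_mod_cast h5
    calc _ ≤ ∑ u ∈ S, (1 + 3 * Δ : ℝ) ^ (2 * R + 1) := Finset.sum_le_sum h1
      _ = _ := by rw [Finset.sum_const, nsmul_eq_mul]; ring
  linarith [hnear, show (S.card : ℝ) * ((S.card : ℝ) * (3 * locErr Δ t 2 R)) =
    3 * locErr Δ t 2 R * (S.card : ℝ) ^ 2 by ring]

/-- mean absolute deviation of the number of survivors in a set -/
theorem l1_cnt (H : Finset (Finset α)) (V S : Finset α) (Δ R : ℕ) (hV : Hyp V H)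
    (hΔ : MaxDeg H Δ) (t : ℝ) (ht : 0 ≤ t) (m : ℝ) (hm : m = ∑ v ∈ S, P (LH H) t (mon {v}) V)
    (γ : ℝ) (hγ : 0 < γ) (hR : locErr Δ t 2 R ≤ γ ^ 2) :
    P (LH H) t (fun A => |cnt S A - m|) V ≤
      2 * γ * S.card + (1 + 3 * Δ : ℝ) ^ (2 * R + 1) / γ := by
  obtain ⟨b, hb⟩ : ∃ b : ℝ, b = (1 + 3 * Δ : ℝ) ^ (2 * R + 1) := ⟨_, rfl⟩
  have hb0 : 0 ≤ b := by rw [hb]; positivity
  have h1 := P_sq_le H t ht (fun A => |cnt S A - m|) V
  have e : (fun B : Finset α => |cnt S B - m| ^ 2) = fun B => (cnt S B - m) ^ 2 := by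
    ext B
    rw [sq_abs]
  rw [e] at h1
  have h2 := h1.trans (var_cnt H V S Δ R hV hΔ t ht m hm)
  rw [← hb] at h2 ⊢
  obtain ⟨x, hx⟩ : ∃ x : ℝ, x = (S.card : ℝ) := ⟨_, rfl⟩
  have hx0 : 0 ≤ x := by rw [hx]; positivity
  rw [← hx] at h2 ⊢
  have h3 : 0 ≤ 2 * γ * x + b / γ := by positivity
  refine le_of_sq_le_sq ?_ h3
  refine h2.trans ?_
  have e2 : (2 * γ * x + b / γ) ^ 2 = 4 * γ ^ 2 * x ^ 2 + 4 * (b * x) + (b / γ) ^ 2 := by
    field_simp
    ring
  rw [e2]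
  have h4 : 3 * locErr Δ t 2 R * x ^ 2 ≤ 3 * γ ^ 2 * x ^ 2 :=
    mul_le_mul_of_nonneg_right (by linarith only [hR]) (sq_nonneg _)
  have h5 : 0 ≤ γ ^ 2 * x ^ 2 := by positivity
  have h6 : 0 ≤ b * x := by positivity
  have h7 : 0 ≤ (b / γ) ^ 2 := sq_nonneg _
  nlinarith only [h4, h5, h6, h7]

/-- master theorem: marginals, live hyperedges, counts in sets -/
theorem master2 (ε : ℝ) (hε : 0 < ε) :
    ∃ T : ℝ, 1 ≤ T ∧ ∃ D₁ : ℝ, 1 ≤ D₁ ∧ ∀ D₂ : ℝ, D₁ ≤ D₂ → ∀ Δ : ℕ, ∃ K₀ : ℕ, ∃ Cv : ℝ, 0 ≤ Cv ∧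
      ∀ D ∈ Set.Icc D₁ D₂,
      ∀ (α : Type) [Fintype α] (V : Finset α) (H : Finset (Finset α)), Hyp V H →
      MaxDeg H Δ → Sep K₀ V H →
      ∑ v ∈ V, (min (zd H D v ^ 4) (zd H D v ^ 2) + min (wd H D v ^ 2) |wd H D v|) ≤
        V.card * D ^ (-(19 / 10 : ℝ)) →
      ∑ v ∈ V, |P (LH H) T (mon {v}) V - 1 / Real.sqrt (2 * D)| ≤
          ε * (V.card / Real.sqrt (2 * D)) ∧
        P (LH H) T (nlive H) V ≤ ε * (V.card / Real.sqrt (2 * D)) ∧
        ∀ S : Finset α, P (LH H) T (fun A => |cnt S A - ∑ v ∈ S, P (LH H) T (mon {v}) V|) V ≤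
          ε * (S.card / Real.sqrt (2 * D)) + Cv := by
  obtain ⟨η, hη⟩ : ∃ η : ℝ, η = min ε 1 / 20 := ⟨_, rfl⟩
  have hη0 : 0 < η := by rw [hη]; positivity
  have hη1 : η ≤ 1 / 20 := by rw [hη]; have := min_le_right ε 1; linarith only [this]
  have hηε : 20 * η ≤ ε := by rw [hη]; have := min_le_left ε 1; linarith only [this]
  obtain ⟨T, hT⟩ : ∃ T : ℝ, T = 1 - Real.log η := ⟨_, rfl⟩
  have hlog : Real.log η ≤ 0 := Real.log_nonpos hη0.le (by linarith only [hη1])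
  have hT1 : 1 ≤ T := by rw [hT]; linarith only [hlog]
  obtain ⟨D₀, hD₀, hE1⟩ := energy1 T η (by linarith only [hT, hlog]) hη0
  refine ⟨T, hT1, max D₀ (1 / η), le_max_of_le_left hD₀, ?_⟩
  intro D₂ hD₂ Δ
  have hD₂1 : 1 ≤ D₂ := (hD₀.trans (le_max_left _ _)).trans hD₂
  have hD₂0 : 0 < D₂ := by linarith only [hη0, hη1, hD₂1]
  obtain ⟨ξ, hξ, hE2⟩ := hE1 D₂ ((le_max_left _ _).trans hD₂)
  obtain ⟨K₀, hK₀⟩ := sys_of_sep Δ T ξ (by linarith) hξ
  have hs2 : 0 < Real.sqrt (2 * D₂) := Real.sqrt_pos.mpr (by positivity)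
  obtain ⟨γ, hγ⟩ : ∃ γ : ℝ, γ = η / Real.sqrt (2 * D₂) := ⟨_, rfl⟩
  have hγ0 : 0 < γ := by rw [hγ]; positivity
  obtain ⟨R, hR⟩ := exists_locErr Δ T 2 (γ ^ 2) (by positivity)
  refine ⟨K₀, (1 + 3 * Δ : ℝ) ^ (2 * R + 1) / γ, by positivity, ?_⟩
  intro D hD α _ V H hV hΔ hS hH
  have hDD : D₀ ≤ D := (le_max_left _ _).trans hD.1
  have hDη : 1 / η ≤ D := (le_max_right _ _).trans hD.1
  have hDη2 : 1 ≤ D * η := by rwa [div_le_iff₀ hη0] at hDη
  have hD1 : 1 ≤ D := hD₀.trans hDD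
  have hD0 : 0 < D := by linarith only [hη0, hη1, hD₀, hDD]
  have hsys := hK₀ α V H hV hΔ hS
  have hen := hE2 D ⟨hDD, hD.2⟩ α V H hV _ _ hsys hH
  obtain ⟨d, hd⟩ : ∃ d, d = Real.sqrt (2 * D) := ⟨_, rfl⟩
  have hd0 : 0 < d := by rw [hd]; positivity
  have hd2 : d ^ 2 = 2 * D := by rw [hd]; exact Real.sq_sqrt (by positivity)
  obtain ⟨x, hx⟩ : ∃ x, x = (V.card : ℝ) / d := ⟨_, rfl⟩
  have hx0 : 0 ≤ x := by rw [hx]; (clear * - hd0; positivity)
  rw [← hd, ← hx]
  -- the marginals at times between `T - 1` and `T`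
  have hmarg : ∀ s, s ∈ Set.Icc (T - 1) T →
      ∑ v ∈ V, |P (LH H) s (mon {v}) V - 1 / d| ≤ 5 * η * x := by
    intro s hs
    have hs0 : s ∈ Set.Icc (0:ℝ) T := ⟨by linarith only [hT, hlog, hs, hs.1], hs.2⟩
    have h1 := hen s hs0
    obtain ⟨r, hr⟩ : ∃ r, r = Real.sqrt (1 + 2 * D * (1 - Real.exp (-s))) := ⟨_, rfl⟩
    have he : Real.exp (-s) ≤ η := by
      calc Real.exp (-s) ≤ Real.exp (Real.log η) := by
            rw [Real.exp_le_exp]
            have := hs.1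
            rw [hT] at this
            linarith only [this]
        _ = η := Real.exp_log hη0
    rw [← hr] at h1
    have e1 : (V.card : ℝ) / r = x * (d / r) := by
      rw [hx]; field_simp
    have h2 := mean_part (x * (d / r)) x d D η (Real.exp (-s)) r hx0 hD1 hη0 hη1 hd0 hd2 hr
      (Real.exp_pos _) he hDη2 (by
        rw [sub_self, abs_zero]
        have : 0 ≤ r := by rw [hr]; exact Real.sqrt_nonneg _
        positivity)
    have h3 : ∑ v ∈ V, |P (LH H) s (mon {v}) V - 1 / d| ≤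
        ∑ v ∈ V, |P (LH H) s (mon {v}) V - 1 / r| + V.card * |1 / r - 1 / d| := by
      rw [← nsmul_eq_mul, ← Finset.sum_const, ← Finset.sum_add_distrib]
      exact Finset.sum_le_sum fun v _ => abs_sub_le _ _ _
    have h4 : (V.card : ℝ) * |1 / r - 1 / d| = |x * (d / r) - x| := by
      rw [← e1, hx, ← abs_of_nonneg (Nat.cast_nonneg V.card : (0:ℝ) ≤ V.card), ← abs_mul,
        abs_of_nonneg (Nat.cast_nonneg V.card : (0:ℝ) ≤ V.card)]
      congr 1
      ring
    rw [e1] at h1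
    have h5 := (abs_le.mp h2).2
    have h6 : η * (x * (d / r)) ≤ η * (x + 3 * η * x) :=
      mul_le_mul_of_nonneg_left (by linarith only [h5]) hη0.le
    have h7 : 0 ≤ η * x := by positivity
    have h8 : η * (3 * η * x) ≤ η * x := by nlinarith only [h7, hη1, hη0]
    have h9 : ∑ v ∈ V, |P (LH H) s (mon {v}) V - 1 / r| ≤ η * (x * (d / r)) := h1
    nlinarith only [h2, h3, h4, h6, h8, h9]
  have hmean : ∀ s, s ∈ Set.Icc (T - 1) T →
      |∑ v ∈ V, P (LH H) s (mon {v}) V - x| ≤ 5 * η * x := by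
    intro s hs
    refine le_trans ?_ (hmarg s hs)
    have e : ∑ v ∈ V, P (LH H) s (mon {v}) V - x =
        ∑ v ∈ V, (P (LH H) s (mon {v}) V - 1 / d) := by
      rw [Finset.sum_sub_distrib, Finset.sum_const, nsmul_eq_mul, hx]
      ring
    rw [e]
    exact Finset.abs_sum_le_sum_abs _ _
  have hTm := hmean T ⟨by linarith only [hη0, hη1], le_rfl⟩
  have hTm1 := hmean (T - 1) ⟨le_rfl, by linarith only [hη0, hη1]⟩
  have h6 : 0 ≤ η * x := by (clear * - hη0 hx0; positivity)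
  have h7 : 20 * η * x ≤ ε * x := mul_le_mul_of_nonneg_right hηε hx0
  refine ⟨?_, ?_, ?_⟩
  · have := hmarg T ⟨by linarith only [hη0, hη1], le_rfl⟩
    nlinarith only [this, h6, h7]
  · have h1 := nlive_le H V hV T hT1
    have h3 := abs_le.mp hTm
    have h4 := abs_le.mp hTm1
    nlinarith only [h1, h3, h4, h6, h7]
  · intro S
    refine (l1_cnt H V S Δ R hV hΔ T (by linarith only [hT1]) _ rfl γ hγ0 hR).trans ?_
    have h1 : 2 * γ ≤ ε / d := by
      have h2 : d ≤ Real.sqrt (2 * D₂) := by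
        rw [hd]; exact Real.sqrt_le_sqrt (by linarith only [hD.2])
      have h3 : γ ≤ η / d := by
        rw [hγ]; exact div_le_div_of_nonneg_left hη0.le hd0 h2
      have h4 : 2 * (η / d) ≤ ε / d := by
        rw [← mul_div_assoc]
        exact div_le_div_of_nonneg_right (by linarith only [hηε, hη0]) hd0.le
      linarith only [h3, h4]
    have h5 : 2 * γ * S.card ≤ ε / d * S.card :=
      mul_le_mul_of_nonneg_right h1 (Nat.cast_nonneg _)
    have e : ε * ((S.card : ℝ) / d) = ε / d * S.card := by ring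
    rw [e]
    linarith only [h5]

/-- the transfer lemma for a Lipschitz function -/
theorem transfer2 (H0 : Finset (Finset α)) (V0 W : Finset α) (hV0 : Hyp V0 H0) (hW : W ⊆ V0)
    (φ F : Finset α → ℝ) (hF : ∀ A : Finset α × Finset α, |F A.1 - F A.2| ≤ dN A)
    (t : ℝ) (ht : 0 ≤ t) (hφ : P (LH H0) t φ = φ)
    (hle : ∀ A, φ A ≤ F A + 3 * nlive H0 A) (D : ℝ) (hD : 0 < D) :
    φ V0 ≤ P (LH (H0.filter (fun h => h ⊆ W))) t F W +
      3 * P (LH (H0.filter (fun h => h ⊆ W))) t (nlive (H0.filter (fun h => h ⊆ W))) W +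
      (Real.sqrt (gw D t) + 3 * (D * Real.exp (2 * t) / Real.sqrt (gw D t))) *
        (((V0 \ W).card : ℝ) + (∑ v ∈ V0 \ W, ldeg H0 V0 v) / D) := by
  obtain ⟨F0, hF0⟩ : ∃ F0 : Finset α → ℝ, F0 = fun A => F A + 3 * nlive H0 A := ⟨_, rfl⟩
  have h1 : φ V0 ≤ P (LH H0) t F0 V0 := by
    have h := P_mono (LH H0) (LH_qpos H0) t ht φ F0 (by rw [hF0]; exact hle) V0
    rwa [hφ] at h
  have h2 : |P (LH H0) t F0 V0 - P (LH H0) t F0 W| ≤
      P (LP H0) t (fun B => 1 * dN B + 3 * dY H0 B) (V0, W) :=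
    P_diff_le H0 t ht F0 (fun B => 1 * dN B + 3 * dY H0 B)
      (fun A => by
        rw [hF0]
        have a1 := abs_le.mp (abs_nlive_sub_le H0 A)
        have a2 := abs_le.mp (hF A)
        show |F A.1 + 3 * nlive H0 A.1 - (F A.2 + 3 * nlive H0 A.2)| ≤ 1 * dN A + 3 * dY H0 A
        rw [abs_le]
        constructor <;> linarith only [a1.1, a1.2, a2.1, a2.2]) V0 W
  rw [PLP_lin] at h2
  have hlin : Lin H0 := lin_of_hyp hV0
  have h3 := stab_N H0 hlin D t hD ht (V0, W)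
  have h4 := stab_Y H0 hlin D t hD ht (V0, W)
  have e1 : dN (V0, W) = ((V0 \ W).card : ℝ) := by
    unfold dN
    simp only
    rw [Finset.sdiff_eq_empty_iff_subset.mpr hW]
    simp
  have e2 : dY H0 (V0, W) = ∑ v ∈ V0 \ W, ldeg H0 V0 v := by
    unfold dY
    simp only
    rw [JJ_eq, JJ_eq, Finset.sdiff_eq_empty_iff_subset.mpr hW]
    simp
  rw [e1, e2] at h3 h4
  obtain ⟨H, hH⟩ : ∃ H, H = H0.filter (fun h => h ⊆ W) := ⟨_, rfl⟩
  rw [← hH]
  have h5 : P (LH H0) t F0 W = P (LH H) t (fun B => F0 (B ∩ W)) W := by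
    have h := P_restrict H0 W t F0 W
    rw [Finset.inter_self] at h
    rw [hH]
    exact h.symm
  have hHH : H.filter (fun h => h ⊆ W) = H := by
    rw [hH, Finset.filter_filter]
    simp
  have h6 : P (LH H) t (fun A => F A + 3 * nlive H A) W =
      P (LH H) t (fun B => F0 (B ∩ W)) W := by
    have h := P_restrict H W t (fun A => F A + 3 * nlive H A) W
    rw [Finset.inter_self, hHH] at h
    rw [← h]
    have e5 : (fun B => F (B ∩ W) + 3 * nlive H (B ∩ W)) = fun B => F0 (B ∩ W) := by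
      ext B
      rw [hF0]
      simp only
      have e4 : nlive H0 (B ∩ W) = nlive H (B ∩ W) := by
        rw [nlive_eq_card, nlive_eq_card, hH, Finset.filter_filter]
        congr 2
        ext h
        rw [Finset.mem_filter, Finset.mem_filter]
        constructor
        · rintro ⟨a, b⟩
          exact ⟨a, b.trans Finset.inter_subset_right, b⟩
        · rintro ⟨a, _, b⟩
          exact ⟨a, b⟩
      rw [e4]
    rw [e5]
  have h7 : P (LH H) t (fun A => F A + 3 * nlive H A) W =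
      P (LH H) t F W + 3 * P (LH H) t (nlive H) W := by
    have e : (fun A : Finset α => F A + 3 * nlive H A) = F + (3:ℝ) • nlive H := by
      ext A
      simp
    rw [e, map_add, map_smul]
    simp
  have h8 := (abs_le.mp h2).2
  have h9 : (Real.sqrt (gw D t) + 3 * (D * Real.exp (2 * t) / Real.sqrt (gw D t))) *
        (((V0 \ W).card : ℝ) + (∑ v ∈ V0 \ W, ldeg H0 V0 v) / D) =
      Real.sqrt (gw D t) * (((V0 \ W).card : ℝ) + (∑ v ∈ V0 \ W, ldeg H0 V0 v) / D) +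
      3 * ((D * Real.exp (2 * t) / Real.sqrt (gw D t)) *
        (((V0 \ W).card : ℝ) + (∑ v ∈ V0 \ W, ldeg H0 V0 v) / D)) := by ring
  rw [h9]
  linarith

/-- the family functional at time `T` -/
lemma P_Fam_le {ι : Type} [Fintype ι] (H : Finset (Finset α)) (V0 W : Finset α) (hW : W ⊆ V0)
    (S : ι → Finset α) (hS : Two V0 S) (y : ι → ℝ) (T : ℝ) (hT : 0 ≤ T) (a Cv d : ℝ) (ha : 0 ≤ a)
    (hd : 0 < d) (hCv : 0 ≤ Cv)
    (h1 : ∑ v ∈ W, |P (LH H) T (mon {v}) W - 1 / d| ≤ a * (W.card / d))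
    (h2 : ∀ S : Finset α, P (LH H) T (fun A => |cnt S A - ∑ v ∈ S, P (LH H) T (mon {v}) W|) W ≤
      a * (S.card / d) + Cv) :
    P (LH H) T (Fam S y) W ≤ 2 * a * (V0.card / d) + ((V0 \ W).card : ℝ) / d +
      Cv * Fintype.card ι + (1 / 2) * ∑ i, |(S i).card / d - y i| := by
  obtain ⟨m, hm⟩ : ∃ m : ι → ℝ, m = fun i => ∑ v ∈ S i, P (LH H) T (mon {v}) W := ⟨_, rfl⟩
  have e1 : ∀ A, Fam S y A ≤
      (∑ i, (1 / 2 : ℝ) • ((fun A => |cnt (S i) A - m i|) + fun _ => |m i - y i|) :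
        Finset α → ℝ) A := by
    intro A
    rw [Finset.sum_apply]
    unfold Fam
    rw [Finset.mul_sum]
    refine Finset.sum_le_sum fun i _ => ?_
    simp only [Pi.smul_apply, Pi.add_apply, smul_eq_mul]
    exact mul_le_mul_of_nonneg_left (abs_sub_le _ _ _) (by norm_num)
  have h3 := P_mono (LH H) (LH_qpos H) T hT _ _ e1 W
  refine h3.trans ?_
  rw [map_sum, Finset.sum_apply]
  have h4 : ∀ i, (P (LH H) T ((1 / 2 : ℝ) • ((fun A => |cnt (S i) A - m i|) +
      fun _ => |m i - y i|))) W ≤ (1 / 2) * (∑ v ∈ S i, (a / d + |P (LH H) T (mon {v}) W - 1 / d|)) +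
        Cv + (1 / 2) * |(S i).card / d - y i| := by
    intro i
    rw [map_smul, map_add]
    simp only [Pi.smul_apply, Pi.add_apply, smul_eq_mul, P_one]
    have h5 := h2 (S i)
    have h6 : |m i - (S i).card / d| ≤ ∑ v ∈ S i, |P (LH H) T (mon {v}) W - 1 / d| := by
      have e : m i - (S i).card / d = ∑ v ∈ S i, (P (LH H) T (mon {v}) W - 1 / d) := by
        rw [Finset.sum_sub_distrib, Finset.sum_const, nsmul_eq_mul, hm]
        ring
      rw [e]
      exact Finset.abs_sum_le_sum_abs _ _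
    have h7 := abs_sub_le (m i) ((S i).card / d) (y i)
    have e2 : ∑ v ∈ S i, (a / d + |P (LH H) T (mon {v}) W - 1 / d|) =
        a * ((S i).card / d) + ∑ v ∈ S i, |P (LH H) T (mon {v}) W - 1 / d| := by
      rw [Finset.sum_add_distrib, Finset.sum_const, nsmul_eq_mul]
      ring
    have e3 : m i = ∑ v ∈ S i, P (LH H) T (mon {v}) W := by rw [hm]
    rw [← e3] at h5
    rw [e2]
    linarith only [h5, h6, h7, hCv]
  refine (Finset.sum_le_sum fun i _ => h4 i).trans ?_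
  rw [Finset.sum_add_distrib, Finset.sum_add_distrib, ← Finset.mul_sum, ← Finset.mul_sum,
    Finset.sum_const, nsmul_eq_mul, Finset.card_univ]
  have h8 := hS (fun v => a / d + |P (LH H) T (mon {v}) W - 1 / d|) (fun v => by positivity)
  have h9 : ∑ v ∈ V0, (a / d + |P (LH H) T (mon {v}) W - 1 / d|) ≤
      2 * a * (V0.card / d) + ((V0 \ W).card : ℝ) / d := by
    rw [Finset.sum_add_distrib, Finset.sum_const, nsmul_eq_mul,
      ← Finset.sum_sdiff hW]
    have h10 : ∑ v ∈ V0 \ W, |P (LH H) T (mon {v}) W - 1 / d| = ((V0 \ W).card : ℝ) / d := by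
      rw [Finset.sum_congr rfl (g := fun _ => 1 / d), Finset.sum_const, nsmul_eq_mul]
      · ring
      · intro v hv
        rw [P_mon_outside H W {v} (fun h => (Finset.mem_sdiff.mp hv).2
          (Finset.singleton_subset_iff.mp h)) T, zero_sub, abs_neg, abs_of_pos (by positivity)]
    have h11 : (W.card : ℝ) ≤ V0.card := by exact_mod_cast Finset.card_le_card hW
    have h12 : a * ((W.card : ℝ) / d) ≤ a * (V0.card / d) :=
      mul_le_mul_of_nonneg_left (div_le_div_of_nonneg_right h11 hd.le) ha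
    have e : (V0.card : ℝ) * (a / d) = a * (V0.card / d) := by ring
    rw [h10, e]
    linarith only [h1, h12]
  have e : (Fintype.card ι : ℝ) * Cv = Cv * Fintype.card ι := by ring
  rw [e]
  linarith only [h8, h9]

/-- the conclusion of the hypergraph-level theorem for fixed parameters -/
def HG2 (ε T D δ Cv : ℝ) (Δ K₀ : ℕ) : Prop :=
  ∀ (α : Type) [Fintype α] (V0 W : Finset α) (H0 : Finset (Finset α)), Hyp V0 H0 → W ⊆ V0 →
      Hyp W (H0.filter (fun h => h ⊆ W)) →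
      MaxDeg (H0.filter (fun h => h ⊆ W)) Δ → Sep K₀ W (H0.filter (fun h => h ⊆ W)) →
      ∑ v ∈ W, (min (zd (H0.filter (fun h => h ⊆ W)) D v ^ 4)
          (zd (H0.filter (fun h => h ⊆ W)) D v ^ 2) +
        min (wd (H0.filter (fun h => h ⊆ W)) D v ^ 2) |wd (H0.filter (fun h => h ⊆ W)) D v|) ≤
        W.card * D ^ (-(19 / 10 : ℝ)) →
      ((V0 \ W).card : ℝ) + (∑ v ∈ V0 \ W, ldeg H0 V0 v) / D ≤ δ * V0.card →
      ∀ (ι : Type) [Fintype ι] (S : ι → Finset α) (y : ι → ℝ), Two V0 S →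
      ∀ φ : Finset α → ℝ, P (LH H0) T φ = φ →
      (∀ A, φ A ≤ Fam S y A + 3 * nlive H0 A) →
      φ V0 ≤ ε * (V0.card / Real.sqrt (2 * D)) + Cv * Fintype.card ι +
        (1 / 2) * ∑ i, |(S i).card / Real.sqrt (2 * D) - y i|

/-- hypergraph-level theorem for a family of sets, with a small exceptional set of vertices -/
theorem final2 (ε : ℝ) (hε : 0 < ε) :
    ∃ T : ℝ, 1 ≤ T ∧ ∃ D₁ : ℝ, 1 ≤ D₁ ∧ ∀ D₂ : ℝ, D₁ ≤ D₂ →
      ∃ δ : ℝ, 0 < δ ∧ ∀ Δ : ℕ, ∃ K₀ : ℕ, ∃ Cv : ℝ, 0 ≤ Cv ∧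
      ∀ D ∈ Set.Icc D₁ D₂, HG2 ε T D δ Cv Δ K₀ := by
  obtain ⟨T, hT, D₁, hD₁, h1⟩ := master2 (ε / 8) (by positivity)
  refine ⟨T, hT, D₁, hD₁, fun D₂ hD₂ => ?_⟩
  have h2 := h1 D₂ hD₂
  have hD₂0 : 0 < D₂ := by linarith
  have hs2 : 0 < Real.sqrt (2 * D₂) := Real.sqrt_pos.mpr (by positivity)
  obtain ⟨C, hC⟩ : ∃ C : ℝ, C = 1 + 4 * D₂ * Real.exp (2 * T) := ⟨_, rfl⟩
  have hC1 : 1 ≤ C := by
    rw [hC]
    have : 0 < 4 * D₂ * Real.exp (2 * T) := by positivity
    linarith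
  have hs21 : 1 ≤ Real.sqrt (2 * D₂) := by rw [Real.one_le_sqrt]; linarith
  refine ⟨ε / 8 / (C * Real.sqrt (2 * D₂)), by positivity, fun Δ => ?_⟩
  obtain ⟨K₀, Cv, hCv, h3⟩ := h2 Δ
  refine ⟨K₀, Cv, hCv, ?_⟩
  intro D hD α _ V0 W H0 hV0 hW hHW hΔ hS hEn hdel ι _ S y hTwo φ hφ hle
  have hD0 : 0 < D := by linarith only [hD₁, hD, hD.1]
  obtain ⟨h4, h5, h5'⟩ := h3 D hD α W (H0.filter (fun h => h ⊆ W)) hHW hΔ hS hEn
  obtain ⟨s, hs⟩ : ∃ s, s = Real.sqrt (2 * D) := ⟨_, rfl⟩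
  have hs0 : 0 < s := by rw [hs]; exact Real.sqrt_pos.mpr (by positivity)
  have hss2 : s ≤ Real.sqrt (2 * D₂) := by
    rw [hs]; exact Real.sqrt_le_sqrt (by linarith only [hD, hD.2])
  have h6 := transfer2 H0 V0 W hV0 hW φ (Fam S y) (Fam_lip V0 S hTwo y) T (by linarith only [hT])
    hφ hle D hD0
  have hconst := stab_const D D₂ T hD0 hD.2 (by linarith only [hT])
  rw [← hC] at hconst
  rw [← hs] at h4 h5 h5' ⊢
  have h7 := P_Fam_le (H0.filter (fun h => h ⊆ W)) V0 W hW S hTwo y T (by linarith only [hT])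
    (ε / 8) Cv s (by positivity) hs0 hCv h4 h5'
  obtain ⟨N, hN'⟩ : ∃ N : ℝ, N = (V0.card : ℝ) := ⟨_, rfl⟩
  have hN0 : 0 ≤ N := by rw [hN']; (clear * -; positivity)
  have hWN : (W.card : ℝ) ≤ N := by rw [hN']; exact_mod_cast Finset.card_le_card hW
  have hsum0 : 0 ≤ (∑ v ∈ V0 \ W, ldeg H0 V0 v) / D :=
    div_nonneg (Finset.sum_nonneg fun v _ => ldeg_nonneg H0 V0 v) hD0.le
  obtain ⟨δ, hδ⟩ : ∃ δ : ℝ, δ = ε / 8 / (C * Real.sqrt (2 * D₂)) := ⟨_, rfl⟩
  rw [← hδ, ← hN'] at hdel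
  rw [← hN'] at h7 ⊢
  have hδ0 : 0 < δ := by rw [hδ]; positivity
  have hδC : C * δ ≤ ε / 8 / s := by
    rw [hδ, le_div_iff₀ hs0]
    have e : C * (ε / 8 / (C * Real.sqrt (2 * D₂))) * s = ε / 8 * (s / Real.sqrt (2 * D₂)) := by
      field_simp
    rw [e]
    have : s / Real.sqrt (2 * D₂) ≤ 1 := by rw [div_le_one hs2]; exact hss2
    have h8 : 0 ≤ ε / 8 := by positivity
    nlinarith only [hε, this]
  have hδ8 : δ ≤ ε / 8 := by
    rw [hδ]
    apply div_le_self (by positivity)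
    nlinarith only [hs21, hs2, hC1]
  have h8 : (Real.sqrt (gw D T) + 3 * (D * Real.exp (2 * T) / Real.sqrt (gw D T))) *
        (((V0 \ W).card : ℝ) + (∑ v ∈ V0 \ W, ldeg H0 V0 v) / D) ≤ ε / 8 * (N / s) := by
    have h9 : 0 ≤ ((V0 \ W).card : ℝ) + (∑ v ∈ V0 \ W, ldeg H0 V0 v) / D := by
      (clear * - hsum0; positivity)
    calc _ ≤ C * (((V0 \ W).card : ℝ) + (∑ v ∈ V0 \ W, ldeg H0 V0 v) / D) :=
          mul_le_mul_of_nonneg_right hconst h9
      _ ≤ C * (δ * N) := mul_le_mul_of_nonneg_left hdel (by linarith only [hC1])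
      _ = C * δ * N := by ring
      _ ≤ ε / 8 / s * N := mul_le_mul_of_nonneg_right hδC hN0
      _ = ε / 8 * (N / s) := by ring
  have h10 : (W.card : ℝ) / s ≤ N / s := div_le_div_of_nonneg_right hWN hs0.le
  have h11 : 0 ≤ N / s := by (clear * - hN0 hs0; positivity)
  have h12 : ε / 8 * ((W.card : ℝ) / s) ≤ ε / 8 * (N / s) :=
    mul_le_mul_of_nonneg_left h10 (by positivity)
  have h13 : ((V0 \ W).card : ℝ) / s ≤ ε / 8 * (N / s) := by
    have h14 : ((V0 \ W).card : ℝ) ≤ ε / 8 * N := by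
      have := mul_le_mul_of_nonneg_right hδ8 hN0
      linarith only [this, hdel, hsum0]
    rw [← mul_div_assoc]
    exact div_le_div_of_nonneg_right h14 hs0.le
  have h14 : 0 ≤ ε * (N / s) := by (clear * - hε hN0 hs0; positivity)
  have e15 : ε / 8 * (N / s) = ε * (N / s) / 8 := by ring
  have e16 : 2 * (ε / 8) * (N / s) = ε * (N / s) / 4 := by ring
  rw [e15] at h8 h12 h13
  rw [e16] at h7
  linarith only [h5, h6, h7, h8, h12, h13, h14]

end Vale.Agent.N046
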