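import Vale.Agent.P046.Bdl.B6
import Vale.Agent.N046.Hyp
import Vale.Agent.N046.Deg

/-!
The total deviation of the degrees of the final graph from `√(n/2)` is `o(n^{3/2})` in mean.
-/

set_option linter.all false

open scoped Classical
open Finset

namespace Vale.Agent.N046

open Vale.Agent.P046 Vale.Agent.P046.C Vale.Agent.P046.Lv
open Vale.Agent.P046.K (Hyp zd wd deg)
open Vale.Agent.P046.S (P LH MaxDeg Sep nlive ldeg mon)

section generic

variable {α : Type} [Fintype α]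

lemma HG2_clean (ε T D δ Cv A : ℝ) (Δ K₀ : ℕ) (h : HG2 ε T D δ Cv Δ K₀)
    (V0 : Finset α) (H0 : Finset (Finset α)) (B : Finset α) (h0 : Hyp V0 H0)
    (h1 : Hyp (keep V0 H0 B A) (cleaned V0 H0 B A))
    (h2 : cleaned V0 H0 B A = K.live H0 (keep V0 H0 B A))
    (h3 : ∀ v, (deg (cleaned V0 H0 B A) v : ℝ) ≤ A) (hΔ : A ≤ Δ)
    (h4 : Sep K₀ (keep V0 H0 B A) (cleaned V0 H0 B A))
    (h6 : ∑ v ∈ keep V0 H0 B A, (min (zd (cleaned V0 H0 B A) D v ^ 4)
        (zd (cleaned V0 H0 B A) D v ^ 2) +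
        min (wd (cleaned V0 H0 B A) D v ^ 2) |wd (cleaned V0 H0 B A) D v|) ≤
        (keep V0 H0 B A).card * D ^ (-(19 / 10 : ℝ)))
    (h7 : ∑ v ∈ delSet V0 H0 B A, (1 + (deg H0 v : ℝ) / D) ≤ δ * V0.card)
    (ι : Type) [Fintype ι] (S : ι → Finset α) (y : ι → ℝ) (hS : Two V0 S)
    (φ : Finset α → ℝ) (h8 : P (LH H0) T φ = φ)
    (h9 : ∀ A, φ A ≤ Fam S y A + 3 * nlive H0 A) :
    φ V0 ≤ ε * (V0.card / Real.sqrt (2 * D)) + Cv * Fintype.card ι +
        (1 / 2) * ∑ i, |(S i).card / Real.sqrt (2 * D) - y i| := by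
  have e1 : H0.filter (fun h => h ⊆ keep V0 H0 B A) = cleaned V0 H0 B A := by
    rw [h2]
    rfl
  have hsub : delSet V0 H0 B A ⊆ V0 := Finset.filter_subset _ _
  have e2 : V0 \ keep V0 H0 B A = delSet V0 H0 B A := by
    unfold keep
    rw [Finset.sdiff_sdiff_eq_self hsub]
  have e3 : ∀ v, ldeg H0 V0 v = (deg H0 v : ℝ) := by
    intro v
    unfold ldeg deg K.star
    rw [Finset.card_filter, Nat.cast_sum]
    refine Finset.sum_congr rfl fun k hk => ?_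
    by_cases hv : v ∈ k
    · rw [if_pos hv, if_pos ⟨h0.sub k hk, hv⟩, Nat.cast_one]
    · rw [if_neg hv, if_neg (fun h' => hv h'.2), Nat.cast_zero]
  refine h α V0 (keep V0 H0 B A) H0 h0 (keep_sub V0 H0 B A) ?_ ?_ ?_ ?_ ?_ ι S y hS φ h8 h9
  · rw [e1]; exact h1
  · rw [e1]
    intro v
    have := (h3 v).trans hΔ
    exact_mod_cast this
  · rw [e1]; exact h4
  · rw [e1]; exact h6
  · rw [e2]
    have e4 : ((delSet V0 H0 B A).card : ℝ) + (∑ v ∈ delSet V0 H0 B A, ldeg H0 V0 v) / D =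
        ∑ v ∈ delSet V0 H0 B A, (1 + (deg H0 v : ℝ) / D) := by
      rw [Finset.sum_add_distrib, Finset.sum_const, nsmul_eq_mul, mul_one, Finset.sum_div]
      congr 1
      exact Finset.sum_congr rfl fun v _ => by rw [e3 v]
    rw [e4]
    exact h7

end generic

variable {n : ℕ}

/-- the predicted degree -/
noncomputable def yn (n : ℕ) : ℝ := 2 * xn n / n

/-- half of the total deviation of the degrees -/
noncomputable def fd (G : SimpleGraph (Fin n)) : ℝ := (1 / 2) * ∑ v, |dg G v - yn n|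

lemma fd_nonneg (G : SimpleGraph (Fin n)) : 0 ≤ fd G :=
  mul_nonneg (by norm_num) (Finset.sum_nonneg fun _ _ => abs_nonneg _)

lemma fd_step (G : SimpleGraph (Fin n)) (t : Finset (Fin n)) (ht : t ∈ triangles G) :
    |fd (removeTriangle G t) - fd G| ≤ 3 := by
  have h1 : ∀ v, |(|dg (removeTriangle G t) v - yn n|) - (|dg G v - yn n|)| ≤
      2 * if v ∈ t then (1:ℝ) else 0 := by
    intro v
    refine (abs_abs_sub_abs_le_abs_sub _ _).trans ?_
    rw [dg_remove G t ht v]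
    have : dg G v - (2 * if v ∈ t then (1:ℝ) else 0) - yn n - (dg G v - yn n) =
        -(2 * if v ∈ t then (1:ℝ) else 0) := by ring
    rw [this, abs_neg, abs_of_nonneg (by split_ifs <;> norm_num)]
  have h2 : |(∑ v, |dg (removeTriangle G t) v - yn n|) - (∑ v, |dg G v - yn n|)| ≤
      ∑ v, 2 * if v ∈ t then (1:ℝ) else 0 := by
    rw [← Finset.sum_sub_distrib]
    exact (Finset.abs_sum_le_sum_abs _ _).trans (Finset.sum_le_sum fun v _ => h1 v)
  rw [← Finset.mul_sum, sum_mem_tri G t ht] at h2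
  unfold fd
  rw [← mul_sub, abs_mul, abs_of_pos (by norm_num : (0:ℝ) < 1 / 2)]
  linarith only [h2]

/-- the edges at a vertex -/
noncomputable def st (G : SimpleGraph (Fin n)) (v : Fin n) : Finset (Sym2 (Fin n)) :=
  G.incidenceFinset v

lemma mem_st (G : SimpleGraph (Fin n)) (v : Fin n) (e : Sym2 (Fin n)) :
    e ∈ st G v ↔ e ∈ G.edgeFinset ∧ v ∈ e := by
  unfold st
  rw [SimpleGraph.mem_incidenceFinset, SimpleGraph.mem_edgeFinset]
  rfl

lemma st_card (G : SimpleGraph (Fin n)) (v : Fin n) : ((st G v).card : ℝ) = dg G v := by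
  unfold st
  rw [SimpleGraph.card_incidenceFinset_eq_degree, dg_eq]

lemma st_two (G : SimpleGraph (Fin n)) : Two G.edgeFinset (st G) := by
  intro g hg
  have h1 : ∀ v, ∑ a ∈ st G v, g a = ∑ a ∈ G.edgeFinset, if v ∈ a then g a else 0 := by
    intro v
    rw [← Finset.sum_filter]
    refine Finset.sum_congr ?_ fun _ _ => rfl
    ext e
    rw [mem_st, Finset.mem_filter]
  rw [Finset.sum_congr rfl fun v _ => h1 v, Finset.sum_comm, Finset.mul_sum]
  refine Finset.sum_le_sum fun a _ => ?_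
  rw [← Finset.sum_filter, Finset.sum_const, nsmul_eq_mul]
  apply mul_le_mul_of_nonneg_right _ (hg a)
  induction a using Sym2.ind with
  | _ x y =>
    have h2 : (Finset.univ.filter fun v : Fin n => v ∈ s(x, y)) ⊆ {x, y} := by
      intro v hv
      rw [Finset.mem_filter, Sym2.mem_iff] at hv
      rw [Finset.mem_insert, Finset.mem_singleton]
      exact hv.2
    have h3 := (Finset.card_le_card h2).trans (Finset.card_le_two (a := x) (b := y))
    exact_mod_cast h3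

lemma st_cnt (G : SimpleGraph (Fin n)) (S : Finset (Sym2 (Fin n))) (v : Fin n) :
    cnt (st G v) S = dg (A.GA (S ∩ G.edgeFinset)) v := by
  have h : st (A.GA (S ∩ G.edgeFinset)) v = (st G v).filter (fun e => e ∈ S) := by
    ext e
    rw [Finset.mem_filter, mem_st, mem_st, A.GA_edge, Finset.mem_inter]
    tauto
  rw [← st_card, h, Finset.card_filter, Nat.cast_sum]
  unfold cnt
  refine Finset.sum_congr rfl fun e _ => ?_
  rw [mon_single]
  by_cases he : e ∈ S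
  · rw [if_pos he, if_pos he, Nat.cast_one]
  · rw [if_neg he, if_neg he, Nat.cast_zero]

lemma phi_dom2 (G : SimpleGraph (Fin n)) (S : Finset (Sym2 (Fin n))) :
    A.phi G fd S ≤ Fam (st G) (fun _ => yn n) S + 3 * nlive (K.TH G) S := by
  rw [nlive_eq (K.TH G) S (fun h => inferInstance), A.live_card]
  have h := A.V_sub_le (fd (n := n)) fd_step (n.choose 2) (A.GA (S ∩ G.edgeFinset))
  have h2 := (abs_le.mp h).2
  have h3 : Fam (st G) (fun _ => yn n) S = fd (A.GA (S ∩ G.edgeFinset)) := by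
    unfold Fam fd
    congr 1
    exact Finset.sum_congr rfl fun v _ => by rw [st_cnt]
  rw [h3]
  unfold A.phi
  linarith only [h2]

lemma huber_ge (d w : ℝ) (hd : 0 < d) : 2 * d * |w| - d ^ 2 ≤ huber d w := by
  rcases hub_cases d w hd with ⟨h1, -, h2⟩ | ⟨h1, -, h2⟩ | ⟨h1, -, h2⟩
  · rw [h2, ← sq_abs w]
    nlinarith only [sq_nonneg (|w| - d)]
  · rw [h2, abs_of_pos (by linarith only [hd, h1])]
  · rw [h2, abs_of_neg (by linarith only [hd, h1])]
    linarith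

lemma deg_term (η : ℝ) (hη : 0 < η) (G : SimpleGraph (Fin n)) (hn : 0 < n)
    (hE : 0 < numEdges G) (hQ : QD η G ≤ η ^ 2) :
    (1 / 2) * ∑ v, |((st G v).card : ℝ) / Real.sqrt (2 * cc G) - yn n| ≤ η * xn n := by
  have hn0 : (0:ℝ) < n := by exact_mod_cast hn
  have hE0 : (0:ℝ) < numEdges G := by exact_mod_cast hE
  have hx := xn_eq G hn hE
  have hN : (G.edgeFinset.card : ℝ) = numEdges G := rfl
  rw [hN] at hx
  have hx0 := (xn_le n).1
  have hc : 0 < Real.sqrt (2 * cc G) := Real.sqrt_pos.mpr (by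
    have := cc_pos G hn hE
    positivity)
  have h1 : ∀ v, |((st G v).card : ℝ) / Real.sqrt (2 * cc G) - yn n| =
      (2 * xn n / n) * |dl G v| := by
    intro v
    rw [← abs_of_nonneg (by positivity : 0 ≤ 2 * xn n / n), ← abs_mul, st_card]
    congr 1
    unfold dl yn
    rw [← hx]
    field_simp
  rw [Finset.sum_congr rfl fun v _ => h1 v, ← Finset.mul_sum]
  have h2 : ∑ v, (2 * η * |dl G v| - η ^ 2) ≤ ∑ v, huber η (dl G v) :=
    Finset.sum_le_sum fun v _ => huber_ge η _ hη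
  rw [Finset.sum_sub_distrib, ← Finset.mul_sum, Finset.sum_const, Finset.card_univ,
    Fintype.card_fin, nsmul_eq_mul] at h2
  unfold QD at hQ
  rw [div_le_iff₀ hn0] at hQ
  have h3 : ∑ v, |dl G v| ≤ η * n := by
    have : 2 * η * ∑ v, |dl G v| ≤ 2 * η * (η * n) := by nlinarith only [h2, hQ]
    exact le_of_mul_le_mul_left this (by positivity)
  calc (1 / 2) * (2 * xn n / n * ∑ v, |dl G v|) ≤ (1 / 2) * (2 * xn n / n * (η * n)) := by
        gcongr
    _ = η * xn n := by field_simp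

/-- the conditional estimate at one graph -/
lemma per_graph2 (ε η T D δ Cv A Λ : ℝ) (Δ K₀ : ℕ) (G : SimpleGraph (Fin n)) (hn : 0 < n)
    (hE : 0 < numEdges G) (hD : C.cc G = D) (h : HG2 ε T D δ Cv Δ K₀)
    (B : Finset (Sym2 (Fin n))) (hs : M2.Sparse (2 * K₀) (G.edgeFinset \ B)) (hΔ : A ≤ Δ)
    (hw : 2 * A * B.card + 6e23 * Λ * numEdges G / A ≤ δ * numEdges G)
    (hc : Clean G D A Λ B) (hη : 0 < η) (hQ : QD η G ≤ η ^ 2) :
    V fd (n.choose 2) G ≤ (ε + η) * xn n + Cv * n := by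
  obtain ⟨c1, c2, c3, c4, c5, c6⟩ := hc
  have h1 := HG2_clean ε T D δ Cv A Δ K₀ h G.edgeFinset (K.TH G) B (hyp_TH G) c1 c2 c3 hΔ (by
      apply Vale.Agent.P046.A.sep_of_sparse (le_refl (2 * K₀))
      · intro k hk
        rw [c2] at hk
        have hk2 := live_sub _ _ hk
        unfold K.TH at hk2
        rw [Finset.mem_image] at hk2
        obtain ⟨t, ht, rfl⟩ := hk2
        unfold triangles at ht
        rw [SimpleGraph.mem_cliqueFinset_iff] at ht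
        exact ⟨t, ht.card_eq, rfl⟩
      · intro k hk
        exact c1.sub k hk
      · exact sparse_link (2 * K₀) G B hs A) c4 (c5.trans hw) (Fin n) (st G) (fun _ => yn n)
      (st_two G) (Vale.Agent.P046.A.phi G fd) (Vale.Agent.P046.A.P_phi G fd T) (phi_dom2 G)
  rw [Vale.Agent.P046.A.phi_self, ← hD, xn_eq G hn hE, Fintype.card_fin] at h1
  have h2 := deg_term η hη G hn hE hQ
  linarith only [h1, h2]

/-- the estimate at one graph with all constants -/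
lemma good_graph2 (ε T δ Cv A Λ K1 ds D1 s : ℝ) (e1 K₀ : ℕ) (G : SimpleGraph (Fin n))
    (hn : 0 < n) (hε : 0 < ε) (hs : (n : ℝ) ^ (3 / 2 : ℝ) = s) (hs0 : 0 < s)
    (hΛ : 0 ≤ Λ) (hK1 : 1 ≤ K1) (hD1 : D1 ≤ 4 * K1 ^ 2)
    (hh : ∀ D ∈ Set.Icc D1 (16 * K1 ^ 2), HG2 ε T D δ Cv ⌈A⌉₊ K₀)
    (hl : ∀ D A' : ℝ, D1 ≤ D → 3 * D ≤ A' → ∀ (m : ℕ) (G' : SimpleGraph (Fin m)), cc G' = D →
      FFc G' ≤ Λ * numEdges G' / D ^ 2 → ∀ B : Finset (Sym2 (Fin m)),
      A' ^ 2 * B.card ≤ numEdges G' → Clean G' D A' Λ B)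
    (hA : 48 * K1 ^ 2 ≤ A) (hAδ : 12e23 * Λ ≤ δ * A)
    (hd2 : A ^ 2 * ds ≤ 1) (hd3 : 4 * A * ds ≤ δ) (hds : 0 ≤ ds)
    (he1 : K1 * s ≤ e1) (he2 : (e1 : ℝ) ≤ 2 * K1 * s) (hCv : Cv * n ≤ ε * s)
    (h1 : numEdges G = e1)
    (h2 : FFc G ≤ Λ * e1 / (4 * (e1:ℝ) ^ 2 / (n:ℝ) ^ 3) ^ 2)
    (B : Finset (Sym2 (Fin n))) (hB : (B.card : ℝ) ≤ ds * s)
    (hsp : M2.Sparse (2 * K₀) (G.edgeFinset \ B)) (hQ : QD ε G ≤ ε ^ 2) :
    V fd (n.choose 2) G ≤ 3 * ε * s := by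
  have hs2 : s ^ 2 = (n : ℝ) ^ 3 := by rw [← hs]; exact C.Fi.s_sq n
  have hN1 : (numEdges G : ℝ) = e1 := by exact_mod_cast h1
  have he0 : (0:ℝ) < e1 := lt_of_lt_of_le (by positivity) he1
  have hcc : cc G = 4 * (e1:ℝ) ^ 2 / (n:ℝ) ^ 3 := by
    unfold cc
    rw [hN1]
  have hD4 : 4 * K1 ^ 2 ≤ cc G := by
    rw [hcc, ← hs2, le_div_iff₀ (by positivity)]
    have := pow_le_pow_left₀ (by positivity) he1 2
    calc 4 * K1 ^ 2 * s ^ 2 = 4 * (K1 * s) ^ 2 := by ring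
      _ ≤ _ := by linarith only [this]
  have hD16 : cc G ≤ 16 * K1 ^ 2 := by
    rw [hcc, ← hs2, div_le_iff₀ (by positivity)]
    have := pow_le_pow_left₀ (by positivity) he2 2
    calc 4 * (e1:ℝ) ^ 2 ≤ 4 * (2 * K1 * s) ^ 2 := by linarith only [this]
      _ = 16 * K1 ^ 2 * s ^ 2 := by ring
  have hA0 : 0 < A := lt_of_lt_of_le (by positivity) hA
  have hse : s ≤ e1 := by
    have : 1 * s ≤ K1 * s := mul_le_mul_of_nonneg_right hK1 hs0.le
    linarith only [he1, this]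
  have hb0 : (0:ℝ) ≤ B.card := Nat.cast_nonneg _
  have hAB : A ^ 2 * B.card ≤ numEdges G := by
    rw [hN1]
    calc A ^ 2 * (B.card : ℝ) ≤ A ^ 2 * (ds * s) := mul_le_mul_of_nonneg_left hB (by positivity)
      _ = (A ^ 2 * ds) * s := by ring
      _ ≤ 1 * s := mul_le_mul_of_nonneg_right hd2 hs0.le
      _ ≤ e1 := by linarith only [hse]
  have hF : FFc G ≤ Λ * numEdges G / (cc G) ^ 2 := by
    rw [hN1, hcc]; exact h2
  have hc := hl (cc G) A (by linarith only [hD1, hD4]) (by linarith only [hA, hD16]) n G rfl hF B hAB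
  have hw : 2 * A * B.card + 6e23 * Λ * numEdges G / A ≤ δ * numEdges G := by
    rw [hN1]
    have w1 : 2 * A * (B.card : ℝ) ≤ δ / 2 * e1 := by
      calc 2 * A * (B.card : ℝ) ≤ 2 * A * (ds * s) := mul_le_mul_of_nonneg_left hB (by positivity)
        _ = (4 * A * ds) / 2 * s := by ring
        _ ≤ δ / 2 * s := mul_le_mul_of_nonneg_right (by linarith only [hd3]) hs0.le
        _ ≤ δ / 2 * e1 := mul_le_mul_of_nonneg_left hse (by
            have : 0 ≤ 4 * A * ds := by (clear * - hA0 hds; positivity)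
            linarith only [hd3, this])
    have w2 : 6e23 * Λ * e1 / A ≤ δ / 2 * e1 := by
      rw [div_le_iff₀ hA0]
      have := mul_le_mul_of_nonneg_right hAδ he0.le
      linarith only [this]
    linarith only [w1, w2]
  have h3 := per_graph2 ε ε T (cc G) δ Cv A Λ ⌈A⌉₊ K₀ G hn (by
      have : (0:ℝ) < numEdges G := by rw [hN1]; exact he0
      exact_mod_cast this) rfl (hh (cc G) ⟨by linarith only [hD1, hD4], hD16⟩) B hsp (Nat.le_ceil A)
      hw hc hε hQ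
  have h4 := (xn_le n).2
  rw [hs] at h4
  have h5 := mul_le_mul_of_nonneg_left h4 (by positivity : 0 ≤ ε + ε)
  linarith only [h3, h5, hCv]

/-- the conditional estimate -/
theorem core2 (ε' : ℝ) (hε' : 0 < ε') : ∃ n0 : ℕ, ∀ n : ℕ, n0 ≤ n → ∃ k1 : ℕ,
    ∃ b : SimpleGraph (Fin n) → ℝ, (∀ G, 0 ≤ b G) ∧ V b k1 (⊤ : SimpleGraph (Fin n)) ≤ ε' ∧
      ∀ G : SimpleGraph (Fin n), b G < 1 → V fd (n.choose 2) G ≤ ε' * (n : ℝ) ^ (3 / 2 : ℝ) := by
  obtain ⟨ε, hεd⟩ : ∃ ε : ℝ, ε = ε' / 3 := ⟨_, rfl⟩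
  have hε : 0 < ε := by rw [hεd]; positivity
  obtain ⟨L, hL⟩ : ∃ L : ℝ, L = 64 / ε := ⟨_, rfl⟩
  have hL0 : 0 < L := by rw [hL]; positivity
  obtain ⟨Λ, hΛ⟩ : ∃ Λ : ℝ, Λ = L * 1e60 := ⟨_, rfl⟩
  have hΛ0 : 0 ≤ Λ := by rw [hΛ]; positivity
  obtain ⟨T, hT, Dh, hDh, hg1⟩ := final2 ε hε
  obtain ⟨Dl, hDl, hl⟩ := level_data Λ hΛ0
  obtain ⟨K2, hK2, hlev⟩ := level_event L hL0
  obtain ⟨K3, hK3, hdeg⟩ := deg_event ε ε hε hε
  obtain ⟨K1, hK1⟩ : ∃ K1 : ℝ, K1 = K2 + Dh + Dl + K3 := ⟨_, rfl⟩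
  obtain ⟨n1, hn1⟩ := hlev K1 (by linarith only [hDh, hDl, hK1, hK3])
  obtain ⟨n3, hn3⟩ := hdeg K1 (by linarith only [hDh, hDl, hK1, hK2])
  have hK11 : 1 ≤ K1 := by linarith
  have hK1D : Dh + Dl ≤ 4 * K1 ^ 2 := by nlinarith only [hK2, hK1, hK3, hK11]
  obtain ⟨δ, hδ, hg2⟩ := hg1 (16 * K1 ^ 2) (by linarith only [hDh, hDl, hK1D])
  obtain ⟨A, hA⟩ : ∃ A : ℝ, A = 48 * K1 ^ 2 + 12e23 * Λ / δ := ⟨_, rfl⟩
  have hq : 0 ≤ 12e23 * Λ / δ := by positivity
  have hA0 : 0 < A := by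
    have : 0 < 48 * K1 ^ 2 := by positivity
    linarith only [hDh, hDl, hK1D, hA, hq]
  have hAδ : 12e23 * Λ ≤ δ * A := by
    have : 12e23 * Λ = δ * (12e23 * Λ / δ) := by field_simp
    rw [this]
    apply mul_le_mul_of_nonneg_left _ hδ.le
    have : 0 < 48 * K1 ^ 2 := by positivity
    linarith only [hDh, hDl, hK1D, hA]
  obtain ⟨K₀, Cv, hCv, hg3⟩ := hg2 ⌈A⌉₊
  obtain ⟨ds, hds0, hds1, hds2, hds3⟩ := choose_ds ε A δ hε hA0 hδ
  obtain ⟨n2, hn2⟩ := M2.sparse (2 * K₀) ds (2 * K1) hds0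
  obtain ⟨p0, hp0⟩ : ∃ p0 : ℝ, p0 = 2 + K1 + Cv / ε := ⟨_, rfl⟩
  have hCe : 0 ≤ Cv / ε := by positivity
  refine ⟨n1 + n2 + n3 + 1 + ⌈p0 ^ 1200⌉₊, fun n hn => ?_⟩
  obtain ⟨p, hpnn, hN⟩ := exists_p n
  have hbig : p0 ^ 1200 ≤ (n:ℝ) := by
    refine (Nat.le_ceil _).trans ?_
    have : ⌈p0 ^ 1200⌉₊ ≤ n := by omega
    exact_mod_cast this
  have hp := p_large n p p0 hpnn hN hbig
  have hnpos : 0 < n := by omega
  have hn1' : (1:ℝ) ≤ n := by exact_mod_cast hnpos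
  have hs : (n:ℝ) ^ (3 / 2 : ℝ) = p ^ 1800 := by
    rw [hN, ← Real.rpow_natCast p 1200, ← Real.rpow_mul hpnn, ← Real.rpow_natCast p 1800]
    norm_num
  have hp1 : 1 ≤ p := by linarith only [hK11, hp0, hp, hCe]
  have hCn : Cv * n ≤ ε * (n:ℝ) ^ (3 / 2 : ℝ) := by
    rw [hs, hN]
    have a1 : Cv / ε ≤ p := by linarith only [hK11, hp0, hp]
    rw [div_le_iff₀ hε] at a1
    have a2 : p ≤ p ^ 600 := le_self_pow₀ hp1 (by norm_num)
    have a3 : Cv ≤ ε * p ^ 600 := by nlinarith only [a1, a2, hε]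
    calc Cv * p ^ 1200 ≤ ε * p ^ 600 * p ^ 1200 :=
          mul_le_mul_of_nonneg_right a3 (by positivity)
      _ = ε * p ^ 1800 := by ring
  obtain ⟨e1, k1, hk, he1, he2⟩ := choose_level n p K1
    (by linarith only [hK11, hp0, hp, hCe]) hN hK11 (by linarith only [hp0, hp, hCe])
  rw [← hs] at he1 he2
  obtain ⟨s, hsd⟩ : ∃ s : ℝ, (n : ℝ) ^ (3 / 2 : ℝ) = s := ⟨_, rfl⟩
  have hs0 : 0 < s := by rw [← hsd]; exact Real.rpow_pos_of_pos (by linarith only [hn1']) _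
  have hb1 := hn1 n (by omega) e1 k1 hk he1 (by linarith only [he2])
  have hb2 := hn2 n (by omega) e1 k1 hk (by linarith only [he2])
  have hb3 := hn3 n (by omega) e1 k1 hk he1 (by linarith only [he2])
  rw [hsd] at he1 he2 hb2 hCn
  have hm0 : ∀ G : SimpleGraph (Fin n), 0 ≤ min 1 (QD ε G / ε ^ 2) := fun G =>
    le_min zero_le_one (div_nonneg (QD_nonneg ε hε G) (by positivity))
  refine ⟨k1, fun G => (levBad FFc e1 (L * 1e60 * e1 / (4 * (e1:ℝ) ^ 2 / (n:ℝ) ^ 3) ^ 2) G +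
    M2.notSparse (2 * K₀) (ds * s) G) + min 1 (QD ε G / ε ^ 2), fun G => add_nonneg
      (add_nonneg (levBad_nonneg _ _ _ _) (notSparse_nonneg _ _ _)) (hm0 G), ?_, ?_⟩
  · rw [LB.V_add_fun (fun G => levBad FFc e1 _ G + M2.notSparse (2 * K₀) (ds * s) G),
      LB.V_add_fun]
    have : (32:ℝ) / L = ε / 2 := by rw [hL]; field_simp; norm_num
    rw [this] at hb1
    linarith only [hds1, hb1, hb2, hb3, hεd, hε]
  · intro G hG
    beta_reduce at hG
    have g0 := hm0 G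
    have g1 := levBad_nonneg (FFc (n := n)) e1
      (L * 1e60 * e1 / (4 * (e1:ℝ) ^ 2 / (n:ℝ) ^ 3) ^ 2) G
    have g2 := notSparse_nonneg (2 * K₀) (ds * s) G
    obtain ⟨g3, g4⟩ := levBad_zero _ _ _ G (by linarith only [hG, g2, g0] : levBad (FFc (n := n)) e1
      (L * 1e60 * e1 / (4 * (e1:ℝ) ^ 2 / (n:ℝ) ^ 3) ^ 2) G < 1)
    obtain ⟨B, -, hB2, hB3⟩ := notSparse_zero (2 * K₀) (ds * s) G (by linarith only [hG, g1, g0])
    have g5 : QD ε G ≤ ε ^ 2 := by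
      have g6 : min 1 (QD ε G / ε ^ 2) < 1 := by linarith only [hG, g1, g2]
      rcases min_lt_iff.mp g6 with g7 | g7
      · exact absurd g7 (lt_irrefl _)
      · rw [div_lt_one (by positivity)] at g7
        exact g7.le
    rw [hsd]
    rw [← hΛ] at g4
    have g8 := good_graph2 ε T δ Cv A Λ K1 ds (Dh + Dl) s e1 K₀ G hnpos hε hsd hs0 hΛ0 hK11 hK1D
      (fun D hD => hg3 D ⟨by linarith only [hDl, hD, hD.1], hD.2⟩)
      (fun D A' hD hA' m G' hc hF B hB => hl D A' (by linarith only [hDh, hD]) hA' m G' hc hF B hB)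
      (by linarith only [hA, hq]) hAδ hds2 hds3 hds0.le he1 (by linarith only [he2]) hCn g3 g4 B
      hB2 hB3 g5
    have : 3 * ε = ε' := by rw [hεd]; ring
    rw [← this]
    exact g8

open Vale.Agent.P046.LB in
/-- the mean deviation is small -/
lemma dev_bound2 (f : SimpleGraph (Fin n) → ℝ) (K s ε : ℝ) (hs : 0 < s) (hε : 0 < ε)
    (hf0 : ∀ H, 0 ≤ f H) (hf2 : ∀ H, f H ^ 2 ≤ 2 * (numEdges H : ℝ) ^ 2 + 2 * s ^ 2)
    (hK : expect (finalGraph n) (fun G => (numEdges G : ℝ) ^ 2) ≤ K * s ^ 2)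
    (k1 : ℕ) (b : SimpleGraph (Fin n) → ℝ) (hb0 : ∀ G, 0 ≤ b G)
    (hb : V b k1 (⊤ : SimpleGraph (Fin n)) ≤ ε ^ 2)
    (hcore : ∀ G : SimpleGraph (Fin n), b G < 1 → V f (n.choose 2) G ≤ ε ^ 2 * s) :
    expect (finalGraph n) f ≤ (ε ^ 2 + ε * (K + 2)) * s := by
  have h0 : expect (finalGraph n) f = V (V f (n.choose 2)) k1 (⊤ : SimpleGraph (Fin n)) :=
    V_split f k1
  rw [h0]
  have h1 : ∀ G : SimpleGraph (Fin n), V f (n.choose 2) G ≤
      ε ^ 2 * s + (ε / (2 * s) * V (fun H => f H ^ 2) (n.choose 2) G + s / (2 * ε) * b G) := by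
    intro G
    have h2 := V_nonneg' f hf0 (n.choose 2) G
    have h3 := V_sq_le f (n.choose 2) G
    have h4 := hb0 G
    obtain ⟨y, hy⟩ : ∃ y : ℝ, y = V f (n.choose 2) G := ⟨_, rfl⟩
    obtain ⟨z, hz⟩ : ∃ z : ℝ, z = V (fun H => f H ^ 2) (n.choose 2) G := ⟨_, rfl⟩
    have h5 : 0 ≤ s / (2 * ε) * b G := by positivity
    have h8 := hcore G
    rw [← hy] at h2 h3 h8 ⊢
    rw [← hz] at h3 ⊢
    have h6 : 0 ≤ z := (sq_nonneg y).trans h3
    have h7 : 0 ≤ ε / (2 * s) * z := by positivity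
    rcases lt_or_ge (b G) 1 with hlt | hge
    · have := h8 hlt
      linarith
    · have e1 : ε / (2 * s) * y ^ 2 + s / (2 * ε) - y = (ε * y - s) ^ 2 / (2 * s * ε) := by
        field_simp
        ring
      have e2 : 0 ≤ (ε * y - s) ^ 2 / (2 * s * ε) := by positivity
      have e3 : ε / (2 * s) * y ^ 2 ≤ ε / (2 * s) * z :=
        mul_le_mul_of_nonneg_left h3 (by positivity)
      have e4 : s / (2 * ε) ≤ s / (2 * ε) * b G := le_mul_of_one_le_right (by positivity) hge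
      have e5 : 0 ≤ ε ^ 2 * s := by positivity
      linarith
  refine (V_mono _ _ h1 k1 ⊤).trans ?_
  rw [V_add_fun (fun _ => ε ^ 2 * s), V_const, V_add_fun (fun H => ε / (2 * s) * _), V_mul_fun,
    V_mul_fun, ← V_split]
  have h9 : V (fun H => f H ^ 2) (n.choose 2) (⊤ : SimpleGraph (Fin n)) ≤ (2 * K + 2) * s ^ 2 := by
    refine (V_mono _ _ hf2 _ _).trans ?_
    rw [V_add_fun (fun H => 2 * (numEdges H : ℝ) ^ 2), V_mul_fun, V_const]
    have h11 : V (fun H => (numEdges H : ℝ) ^ 2) (n.choose 2) (⊤ : SimpleGraph (Fin n)) ≤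
        K * s ^ 2 := hK
    linarith
  have h12 : ε / (2 * s) * V (fun H => f H ^ 2) (n.choose 2) (⊤ : SimpleGraph (Fin n)) ≤
      ε / (2 * s) * ((2 * K + 2) * s ^ 2) := mul_le_mul_of_nonneg_left h9 (by positivity)
  have h13 : s / (2 * ε) * V b k1 (⊤ : SimpleGraph (Fin n)) ≤ s / (2 * ε) * ε ^ 2 :=
    mul_le_mul_of_nonneg_left hb (by positivity)
  have e6 : ε / (2 * s) * ((2 * K + 2) * s ^ 2) = ε * (K + 1) * s := by
    field_simp
  have e7 : s / (2 * ε) * ε ^ 2 = ε * s / 2 := by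
    field_simp
  rw [e6] at h12
  rw [e7] at h13
  have h14 : 0 ≤ ε * s := by positivity
  calc ε ^ 2 * s + (ε / (2 * s) * V (fun H => f H ^ 2) (n.choose 2) (⊤ : SimpleGraph (Fin n)) +
        s / (2 * ε) * V b k1 (⊤ : SimpleGraph (Fin n)))
      ≤ ε ^ 2 * s + (ε * (K + 1) * s + ε * s / 2) := by linarith
    _ ≤ (ε ^ 2 + ε * (K + 2)) * s := by nlinarith

lemma fd_le (G : SimpleGraph (Fin n)) (hn : 0 < n) : fd G ≤ numEdges G + xn n := by
  have hn0 : (0:ℝ) < n := by exact_mod_cast hn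
  have hy : 0 ≤ yn n := by
    have := (xn_le n).1
    unfold yn
    positivity
  have h1 : ∑ v, |dg G v - yn n| ≤ ∑ v, (dg G v + yn n) :=
    Finset.sum_le_sum fun v _ => by
      have := dg_nonneg G v
      rw [abs_le]
      constructor <;> linarith
  rw [Finset.sum_add_distrib, sum_dg, Finset.sum_const, Finset.card_univ, Fintype.card_fin,
    nsmul_eq_mul] at h1
  have h2 : (n:ℝ) * yn n = 2 * xn n := by
    unfold yn
    field_simp
  unfold fd
  linarith only [h1, h2]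

/-- the total deviation of the degrees is `o(n^{3/2})` in mean -/
theorem fd_small (η : ℝ) (hη : 0 < η) : ∃ n0 : ℕ, ∀ n : ℕ, n0 ≤ n →
    expect (finalGraph n) fd ≤ η * (n : ℝ) ^ (3 / 2 : ℝ) := by
  obtain ⟨K, hK0, hK⟩ := C.Fi.second_moment
  obtain ⟨ε, hε, hε2⟩ : ∃ ε : ℝ, 0 < ε ∧ ε ^ 2 + ε * (K + 2) < η := by
    refine ⟨min 1 (η / (2 * (K + 3))), by positivity, ?_⟩
    have h1 : min 1 (η / (2 * (K + 3))) ≤ 1 := min_le_left _ _
    have h2 : min 1 (η / (2 * (K + 3))) ≤ η / (2 * (K + 3)) := min_le_right _ _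
    have h3 : 0 < min 1 (η / (2 * (K + 3))) := by positivity
    rw [le_div_iff₀ (by positivity)] at h2
    nlinarith
  obtain ⟨n0, hn0⟩ := core2 (ε ^ 2) (by positivity)
  refine ⟨n0 + 2, fun n hn => ?_⟩
  obtain ⟨k1, b, hb0, hb, hcore⟩ := hn0 n (by omega)
  have hnpos : (0:ℝ) < n := by
    have : 0 < n := by omega
    exact_mod_cast this
  have hs : 0 < (n : ℝ) ^ (3 / 2 : ℝ) := Real.rpow_pos_of_pos hnpos _
  have hK2 : expect (finalGraph n) (fun G => (numEdges G : ℝ) ^ 2) ≤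
      K * ((n : ℝ) ^ (3 / 2 : ℝ)) ^ 2 := by
    rw [C.Fi.s_sq]
    exact hK n (by omega)
  have h1 := dev_bound2 fd K _ ε hs hε fd_nonneg (fun H => by
    have a1 := fd_le H (by omega)
    have a2 := fd_nonneg H
    have a3 := (xn_le n).1
    have a4 := (xn_le n).2
    have a5 : fd H ≤ numEdges H + (n : ℝ) ^ (3 / 2 : ℝ) := by linarith only [a1, a4]
    have a6 := pow_le_pow_left₀ a2 a5 2
    nlinarith only [a6, sq_nonneg ((numEdges H : ℝ) - (n : ℝ) ^ (3 / 2 : ℝ))])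
    hK2 k1 b hb0 hb hcore
  exact h1.trans (mul_le_mul_of_nonneg_right hε2.le hs.le)

end Vale.Agent.N046
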