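import Vale.Agent.P046.H561.Count
import Vale.Agent.N046.Core

/-!
Law of large numbers for the degrees of the final graph, and for the number of neighbours of a
vertex in a given set.
-/

set_option linter.all false

open scoped Classical
open Finset Filter

namespace Vale.Agent.N046

open Vale.Agent.P046 Vale.Agent.P046.H561

variable {n : ℕ}

/-- adjacency indicator -/
noncomputable def X (v u : Fin n) (G : SimpleGraph (Fin n)) : ℝ := if G.Adj v u then 1 else 0

lemma X_nonneg (v u : Fin n) (G : SimpleGraph (Fin n)) : 0 ≤ X v u G := by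
  unfold X
  split_ifs <;> norm_num

lemma X_sq (v u : Fin n) (G : SimpleGraph (Fin n)) : X v u G * X v u G = X v u G := by
  unfold X
  split_ifs <;> norm_num

lemma X_self (v : Fin n) (G : SimpleGraph (Fin n)) : X v v G = 0 := if_neg (G.irrefl)

lemma X_rl (σ : Equiv.Perm (Fin n)) (v u : Fin n) (G : SimpleGraph (Fin n)) :
    X (σ v) (σ u) (rl σ G) = X v u G := by
  unfold X
  simp only [rl_adj, Equiv.symm_apply_apply]

lemma dg_X (G : SimpleGraph (Fin n)) (v : Fin n) : dg G v = ∑ u, X v u G := rfl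

lemma dg_rl (σ : Equiv.Perm (Fin n)) (v : Fin n) (G : SimpleGraph (Fin n)) :
    dg (rl σ G) (σ v) = dg G v := by
  rw [dg_X, dg_X, ← Equiv.sum_comp σ]
  exact Finset.sum_congr rfl fun u _ => X_rl σ v u G

lemma ex_dg_eq (v w : Fin n) (y : ℝ) :
    ex (fun G : SimpleGraph (Fin n) => |dg G w - y|) = ex (fun G => |dg G v - y|) := by
  rw [← ex_rl (Equiv.swap v w)]
  refine congrArg ex (funext fun G => ?_)
  have h := dg_rl (Equiv.swap v w) v G
  rw [Equiv.swap_apply_left] at h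
  rw [h]

lemma rpow32' (n : ℕ) (hn : 0 < n) : (n : ℝ) ^ (3 / 2 : ℝ) = n * √n := by
  have h : (0 : ℝ) < n := by exact_mod_cast hn
  rw [Real.sqrt_eq_rpow, show (3 / 2 : ℝ) = 1 + 1 / 2 by norm_num, Real.rpow_add h,
    Real.rpow_one]

lemma yn_eq (n : ℕ) (hn : 0 < n) : yn n = n / √(2 * n) := by
  have h : (0 : ℝ) < n := by exact_mod_cast hn
  have h2 : (0:ℝ) < √2 := Real.sqrt_pos.mpr (by norm_num)
  have h3 : (0:ℝ) < √n := Real.sqrt_pos.mpr h
  have h4 : √(n:ℝ) * √n = n := Real.mul_self_sqrt h.le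
  unfold yn Lv.xn
  rw [rpow32' n hn, Real.sqrt_mul (by norm_num)]
  field_simp
  nlinarith only [h4]

lemma yn_eq' (n : ℕ) (hn : 0 < n) : yn n = √(n / 2) := by
  have h : (0 : ℝ) < n := by exact_mod_cast hn
  have h7 : √((n : ℝ) / 2) * √(2 * (n : ℝ)) = n := by
    rw [← Real.sqrt_mul (by positivity)]
    have : (n : ℝ) / 2 * (2 * n) = n ^ 2 := by ring
    rw [this, Real.sqrt_sq h.le]
  rw [yn_eq n hn, div_eq_iff (Real.sqrt_pos.mpr (by positivity)).ne', h7]

/-- the degree of a fixed vertex, in mean -/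
theorem deg_l1 (ε : ℝ) (hε : 0 < ε) : ∀ᶠ n : ℕ in atTop, ∀ v : Fin n,
    ex (fun G : SimpleGraph (Fin n) => |dg G v - yn n|) ≤ ε * √n := by
  obtain ⟨n0, h⟩ := fd_small (ε / 2) (by positivity)
  filter_upwards [eventually_ge_atTop n0, eventually_gt_atTop 0] with n h1 hn v
  have h2 : ex (fd (n := n)) ≤ ε / 2 * (n : ℝ) ^ (3 / 2 : ℝ) := h n h1
  have h3 : ex (fd (n := n)) = (1 / 2) * (n * ex (fun G : SimpleGraph (Fin n) => |dg G v - yn n|)) := by
    have e : (fd (n := n)) = fun G => (1 / 2) * ∑ w, |dg G w - yn n| := rfl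
    rw [e, ex_mul_left, ex_sum, Finset.sum_congr rfl fun w _ => ex_dg_eq v w (yn n),
      Finset.sum_const, Finset.card_univ, Fintype.card_fin, nsmul_eq_mul]
  have hn0 : (0 : ℝ) < n := by exact_mod_cast hn
  rw [h3, rpow32' n hn] at h2
  have h4 : (n:ℝ) * ex (fun G : SimpleGraph (Fin n) => |dg G v - yn n|) ≤ n * (ε * √n) := by
    linarith only [h2]
  exact le_of_mul_le_mul_left h4 hn0

lemma ex_XX_eq {v u w u' w' : Fin n} (h1 : u ≠ v) (h2 : w ≠ v) (h3 : u ≠ w) (h1' : u' ≠ v)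
    (h2' : w' ≠ v) (h3' : u' ≠ w') :
    ex (fun G => X v u G * X v w G) = ex fun G => X v u' G * X v w' G := by
  obtain ⟨σ, hσ⟩ := exists_perm (⟨![v, u, w], by
    intro i j hij
    fin_cases i <;> fin_cases j <;> simp_all [eq_comm]⟩ : Fin 3 ↪ Fin n) ⟨![v, u', w'], by
    intro i j hij
    fin_cases i <;> fin_cases j <;> simp_all [eq_comm]⟩
  have a0 : σ v = v := hσ 0
  have a1 : σ u = u' := hσ 1
  have a2 : σ w = w' := hσ 2
  rw [← ex_rl σ (fun G => X v u' G * X v w' G)]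
  refine congrArg ex (funext fun G => ?_)
  have b1 := X_rl σ v u G
  have b2 := X_rl σ v w G
  rw [a0, a1] at b1
  rw [a0, a2] at b2
  rw [b1, b2]

/-- exchangeability of the neighbours -/
lemma exch (v : Fin n) (c : Fin n → ℝ) (hc0 : ∑ u ∈ Finset.univ.erase v, c u = 0)
    (hc1 : ∀ u, c u ^ 2 ≤ 1) :
    ex (fun G : SimpleGraph (Fin n) => (∑ u ∈ Finset.univ.erase v, c u * X v u G) ^ 2) ≤
      ex (fun G => dg G v) := by
  obtain ⟨U, hU⟩ : ∃ U : Finset (Fin n), U = Finset.univ.erase v := ⟨_, rfl⟩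
  have hUv : ∀ u ∈ U, u ≠ v := fun u hu => by
    rw [hU] at hu
    exact (Finset.mem_erase.mp hu).1
  rw [← hU] at hc0 ⊢
  obtain ⟨p, hp0, hp⟩ : ∃ p : ℝ, 0 ≤ p ∧ ∀ u ∈ U, ∀ w ∈ U, u ≠ w →
      ex (fun G => X v u G * X v w G) = p := by
    by_cases h : ∃ u ∈ U, ∃ w ∈ U, u ≠ w
    · obtain ⟨u0, hu0, w0, hw0, h0⟩ := h
      exact ⟨_, ex_nonneg fun G => mul_nonneg (X_nonneg v u0 G) (X_nonneg v w0 G),
        fun u hu w hw huw => ex_XX_eq (hUv u hu) (hUv w hw) huw (hUv u0 hu0) (hUv w0 hw0) h0⟩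
    · exact ⟨0, le_rfl, fun u hu w hw huw => absurd ⟨u, hu, w, hw, huw⟩ h⟩
  have e1 : (fun G : SimpleGraph (Fin n) => (∑ u ∈ U, c u * X v u G) ^ 2) =
      fun G => ∑ u ∈ U, ∑ w ∈ U, c u * c w * (X v u G * X v w G) := by
    funext G
    rw [sq, Finset.sum_mul_sum]
    exact Finset.sum_congr rfl fun u _ => Finset.sum_congr rfl fun w _ => by ring
  have e2 : ∀ u ∈ U, ex (fun G : SimpleGraph (Fin n) => ∑ w ∈ U, c u * c w * (X v u G * X v w G)) =
      c u ^ 2 * (ex (X v u) - p) := by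
    intro u hu
    rw [ex_sum]
    have e3 : ∀ w ∈ U, ex (fun G : SimpleGraph (Fin n) => c u * c w * (X v u G * X v w G)) =
        c u * p * c w + if w = u then c u ^ 2 * (ex (X v u) - p) else 0 := by
      intro w hw
      rw [ex_mul_left]
      by_cases h : w = u
      · rw [if_pos h, h]
        have : (fun G => X v u G * X v u G) = X v u := funext fun G => X_sq v u G
        rw [this]
        ring
      · rw [if_neg h, hp u hu w hw (Ne.symm h)]
        ring
    rw [Finset.sum_congr rfl e3, Finset.sum_add_distrib, ← Finset.mul_sum, hc0, mul_zero, zero_add,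
      Finset.sum_ite_eq', if_pos hu]
  rw [e1, ex_sum, Finset.sum_congr rfl e2]
  have e4 : (fun G : SimpleGraph (Fin n) => dg G v) = fun G => ∑ u, X v u G := rfl
  rw [e4, ex_sum]
  have e5 : ∀ u, 0 ≤ ex (X v u) := fun u => ex_nonneg fun G => X_nonneg v u G
  calc ∑ u ∈ U, c u ^ 2 * (ex (X v u) - p) ≤ ∑ u ∈ U, ex (X v u) :=
        Finset.sum_le_sum fun u _ => by
          nlinarith only [hc1 u, e5 u, hp0, sq_nonneg (c u), mul_nonneg (sq_nonneg (c u)) hp0,
            mul_nonneg (sub_nonneg.mpr (hc1 u)) (e5 u)]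
    _ ≤ ∑ u, ex (X v u) :=
        Finset.sum_le_sum_of_subset_of_nonneg (Finset.subset_univ _) fun u _ _ => e5 u

lemma card_nb (v : Fin n) (A : Finset (Fin n)) (G : SimpleGraph (Fin n)) :
    ((A.filter fun u => G.Adj v u).card : ℝ) =
      ∑ u ∈ Finset.univ.erase v, (if u ∈ A then 1 else 0) * X v u G := by
  rw [Finset.sum_erase _ (by rw [X_self, mul_zero]), Finset.card_filter, Nat.cast_sum]
  have : ∀ u, (if u ∈ A then (1:ℝ) else 0) * X v u G = if u ∈ A then X v u G else 0 := by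
    intro u
    split_ifs
    · rw [one_mul]
    · rw [zero_mul]
  rw [Finset.sum_congr rfl fun u _ => this u, Finset.sum_ite_mem, Finset.univ_inter]
  refine Finset.sum_congr rfl fun u _ => ?_
  unfold X
  split_ifs
  · exact Nat.cast_one
  · exact Nat.cast_zero

lemma pointwise (hn : 2 ≤ n) (v : Fin n) (A : Finset (Fin n)) (t : ℝ) (ht : 0 < t) :
    ∃ c : Fin n → ℝ, ∑ u ∈ Finset.univ.erase v, c u = 0 ∧ (∀ u, c u ^ 2 ≤ 1) ∧
      ∀ G : SimpleGraph (Fin n),
      |((A.filter fun u => G.Adj v u).card : ℝ) - A.card / √(2 * n)| ≤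
        1 / (2 * t) * (∑ u ∈ Finset.univ.erase v, c u * X v u G) ^ 2 +
          (|dg G v - yn n| + (t / 2 + 1)) := by
  have hn2 : (2:ℝ) ≤ n := by exact_mod_cast hn
  obtain ⟨k, hk⟩ : ∃ k : ℝ, k = ∑ u ∈ Finset.univ.erase v, (if u ∈ A then (1:ℝ) else 0) :=
    ⟨_, rfl⟩
  have hm : ((Finset.univ.erase v).card : ℝ) = n - 1 := by
    rw [Finset.card_erase_of_mem (Finset.mem_univ v), Finset.card_univ, Fintype.card_fin,
      Nat.cast_sub (by omega), Nat.cast_one]
  have hk0 : 0 ≤ k := by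
    rw [hk]
    exact Finset.sum_nonneg fun u _ => by split_ifs <;> norm_num
  have hk1 : k ≤ n - 1 := by
    rw [hk, ← hm]
    calc ∑ u ∈ Finset.univ.erase v, (if u ∈ A then (1:ℝ) else 0) ≤
          ∑ _u ∈ Finset.univ.erase v, (1:ℝ) :=
          Finset.sum_le_sum fun u _ => by split_ifs <;> norm_num
      _ = _ := by rw [Finset.sum_const, nsmul_eq_mul, mul_one]
  have hkA : k + (if v ∈ A then (1:ℝ) else 0) = A.card := by
    rw [hk, Finset.sum_erase_add _ _ (Finset.mem_univ v), Finset.sum_ite_mem, Finset.univ_inter,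
      Finset.sum_const, nsmul_eq_mul, mul_one]
  obtain ⟨θ, hθ⟩ : ∃ θ : ℝ, θ = k / (n - 1) := ⟨_, rfl⟩
  have hm0 : (0:ℝ) < n - 1 := by linarith only [hn2]
  have hθ0 : 0 ≤ θ := by rw [hθ]; positivity
  have hθ1 : θ ≤ 1 := by rw [hθ, div_le_one hm0]; exact hk1
  have hθk : θ * (n - 1) = k := by rw [hθ]; field_simp
  refine ⟨fun u => (if u ∈ A then 1 else 0) - θ, ?_, fun u => ?_, fun G => ?_⟩
  · rw [Finset.sum_sub_distrib, ← hk, Finset.sum_const, nsmul_eq_mul, hm]
    linarith only [hθk]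
  · beta_reduce
    split_ifs <;> nlinarith only [hθ0, hθ1]
  · have e1 : ∑ u ∈ Finset.univ.erase v, ((if u ∈ A then (1:ℝ) else 0) - θ) * X v u G =
        ((A.filter fun u => G.Adj v u).card : ℝ) - θ * dg G v := by
      rw [card_nb, dg_X, ← Finset.sum_erase (a := v) Finset.univ (X_self v G), Finset.mul_sum,
        ← Finset.sum_sub_distrib]
      exact Finset.sum_congr rfl fun u _ => by ring
    rw [e1]
    obtain ⟨N, hN⟩ : ∃ N : ℝ, N = ((A.filter fun u => G.Adj v u).card : ℝ) := ⟨_, rfl⟩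
    rw [← hN]
    have hs1 : 1 ≤ √(2 * (n:ℝ)) := by
      rw [Real.one_le_sqrt]
      linarith only [hn2]
    have e2 : |θ * yn n - A.card / √(2 * n)| ≤ 1 := by
      rw [yn_eq n (by omega), ← mul_div_assoc, ← sub_div, abs_div, abs_of_pos (by linarith only [hs1] :
        0 < √(2 * (n:ℝ))), div_le_one (by linarith only [hs1])]
      refine le_trans ?_ hs1
      rw [← hkA, abs_le]
      constructor <;> split_ifs <;> nlinarith only [hθk, hθ0, hθ1]
    have e3 : |θ * (dg G v - yn n)| ≤ |dg G v - yn n| := by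
      rw [abs_mul, abs_of_nonneg hθ0]
      exact mul_le_of_le_one_left (abs_nonneg _) hθ1
    have e4 : |N - θ * dg G v| ≤ 1 / (2 * t) * (N - θ * dg G v) ^ 2 + t / 2 := by
      rw [← sq_abs]
      have : 1 / (2 * t) * |N - θ * dg G v| ^ 2 + t / 2 - |N - θ * dg G v| =
          (|N - θ * dg G v| - t) ^ 2 / (2 * t) := by
        field_simp
        ring
      have h5 : 0 ≤ (|N - θ * dg G v| - t) ^ 2 / (2 * t) := by positivity
      linarith only [this, h5]
    have e5 : N - A.card / √(2 * n) = (N - θ * dg G v) + (θ * (dg G v - yn n) +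
        (θ * yn n - A.card / √(2 * n))) := by ring
    rw [e5]
    have e6 := abs_add_le (N - θ * dg G v) (θ * (dg G v - yn n) + (θ * yn n - A.card / √(2 * n)))
    have e7 := abs_add_le (θ * (dg G v - yn n)) (θ * yn n - A.card / √(2 * n))
    linarith only [e2, e3, e4, e6, e7]

lemma sqrt_big (x : ℝ) : ∀ᶠ n : ℕ in atTop, x ≤ √n := by
  filter_upwards [eventually_ge_atTop ⌈x ^ 2⌉₊] with n hn
  have h1 : x ^ 2 ≤ n := (Nat.le_ceil _).trans (by exact_mod_cast hn)
  exact (le_abs_self x).trans (Real.abs_le_sqrt h1)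

/-- the number of neighbours in a set -/
theorem nb_l1 (ε : ℝ) (hε : 0 < ε) : ∀ᶠ n : ℕ in atTop, ∀ (v : Fin n) (A : Finset (Fin n)),
    ∑ G, (finalGraph n G).toReal *
      |((A.filter fun u => G.Adj v u).card : ℝ) - A.card / √(2 * n)| ≤ ε * √n := by
  filter_upwards [deg_l1 (ε / 4) (by positivity), deg_l1 1 one_pos, eventually_ge_atTop 2,
    sqrt_big ((2 / ε + 1) * (2 / ε))] with n h1 h2 hn h3 v A
  have hn2 : (2:ℝ) ≤ n := by exact_mod_cast hn
  have hs : 0 < √(n:ℝ) := Real.sqrt_pos.mpr (by linarith only [hn2])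
  obtain ⟨c, hc0, hc1, hc⟩ := pointwise hn v A (ε * √n / 2) (by positivity)
  have h4 := ex_mono hc
  rw [ex_add, ex_add, ex_mul_left, ex_const] at h4
  have h5 := exch v c hc0 hc1
  have h6 : ex (fun G : SimpleGraph (Fin n) => dg G v) ≤ 2 * √n := by
    have h7 : ex (fun G : SimpleGraph (Fin n) => dg G v) ≤
        ex (fun G : SimpleGraph (Fin n) => |dg G v - yn n| + yn n) :=
      ex_mono fun G => by linarith only [le_abs_self (dg G v - yn n)]
    rw [ex_add, ex_const] at h7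
    have h8 : yn n ≤ √n := by
      rw [yn_eq' n (by omega)]
      exact Real.sqrt_le_sqrt (by linarith only [hn2])
    linarith only [h7, h8, h2 v]
  have h9 : 1 / (2 * (ε * √n / 2)) * ex (fun G : SimpleGraph (Fin n) =>
      (∑ u ∈ Finset.univ.erase v, c u * X v u G) ^ 2) ≤ 1 / (2 * (ε * √n / 2)) * (2 * √n) :=
    mul_le_mul_of_nonneg_left (h5.trans h6) (by positivity)
  have h10 : 1 / (2 * (ε * √n / 2)) * (2 * √n) = 2 / ε := by field_simp
  have h11 : 2 / ε + 1 ≤ ε * √n / 2 := by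
    have := mul_le_mul_of_nonneg_left h3 (by positivity : 0 ≤ ε / 2)
    have e : ε / 2 * ((2 / ε + 1) * (2 / ε)) = 2 / ε + 1 := by field_simp
    linarith only [this, e]
  have h12 : ex (fun G : SimpleGraph (Fin n) =>
      |((A.filter fun u => G.Adj v u).card : ℝ) - A.card / √(2 * n)|) ≤ ε * √n := by
    linarith only [h4, h9, h10, h11, h1 v]
  exact h12

/-- Markov's inequality -/
lemma markov (f : SimpleGraph (Fin n) → ℝ) (hf : ∀ G, 0 ≤ f G) (a : ℝ) (ha : 0 < a)
    (S : Set (SimpleGraph (Fin n))) (hS : ∀ G ∈ S, a ≤ f G) :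
    ((finalGraph n).toOuterMeasure S).toReal ≤ 1 / a * ex f := by
  rw [prob_eq, ← ex_mul_left]
  refine ex_mono fun G => ?_
  by_cases h : G ∈ S
  · rw [if_pos h, one_div, inv_mul_eq_div, le_div_iff₀ ha, one_mul]
    exact hS G h
  · rw [if_neg h]
    have := hf G
    positivity

lemma rel_dev (hn : 0 < n) (G : SimpleGraph (Fin n)) (v : Fin n) (ε : ℝ) (hε : 0 < ε)
    (h : ε ≤ |(G.degree v : ℝ) / √(n / 2) - 1|) : ε * √n / 2 ≤ |dg G v - yn n| := by
  have hn0 : (0:ℝ) < n := by exact_mod_cast hn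
  have hy : 0 < √((n:ℝ) / 2) := Real.sqrt_pos.mpr (by positivity)
  have h1 : √(n:ℝ) / 2 ≤ √((n:ℝ) / 2) := by
    apply Real.le_sqrt_of_sq_le
    rw [div_pow, Real.sq_sqrt hn0.le]
    linarith only [hn0]
  have h2 : |dg G v - yn n| = √((n:ℝ) / 2) * |(G.degree v : ℝ) / √(n / 2) - 1| := by
    rw [← abs_of_pos hy, ← abs_mul, abs_of_pos hy, yn_eq' n hn, dg_eq]
    congr 1
    field_simp
  rw [h2]
  calc ε * √n / 2 = √n / 2 * ε := by ring
    _ ≤ _ := mul_le_mul h1 h hε.le hy.le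

/-- the degree of a fixed vertex, in probability -/
theorem deg_prob (ε : ℝ) (hε : 0 < ε) : ∀ᶠ n : ℕ in atTop, ∀ v : Fin n,
    ((finalGraph n).toOuterMeasure {G | ε ≤ |(G.degree v : ℝ) / √(n / 2) - 1|}).toReal ≤ ε := by
  filter_upwards [deg_l1 (ε ^ 2 / 2) (by positivity), eventually_gt_atTop 0] with n h1 hn v
  have hs : 0 < √(n:ℝ) := Real.sqrt_pos.mpr (by exact_mod_cast hn)
  refine (markov (fun G => |dg G v - yn n|) (fun G => abs_nonneg _) (ε * √n / 2) (by positivity) _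
    fun G hG => rel_dev hn G v ε hε hG).trans ?_
  calc 1 / (ε * √n / 2) * ex (fun G : SimpleGraph (Fin n) => |dg G v - yn n|) ≤
        1 / (ε * √n / 2) * (ε ^ 2 / 2 * √n) :=
        mul_le_mul_of_nonneg_left (h1 v) (by positivity)
    _ = ε := by field_simp

/-- almost all vertices have the typical degree -/
theorem most_deg (ε : ℝ) (hε : 0 < ε) : Tendsto (fun n : ℕ => ((finalGraph n).toOuterMeasure
    {G | ε * n ≤ ((Finset.univ.filter fun v : Fin n =>
      ε ≤ |(G.degree v : ℝ) / √(n / 2) - 1|).card : ℝ)}).toReal) atTop (nhds 0) := by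
  rw [Metric.tendsto_nhds]
  intro η hη
  filter_upwards [deg_l1 (ε ^ 2 * η / 4) (by positivity), eventually_gt_atTop 0] with n h1 hn
  have hn0 : (0:ℝ) < n := by exact_mod_cast hn
  have hs : 0 < √(n:ℝ) := Real.sqrt_pos.mpr hn0
  rw [Real.dist_eq, sub_zero, abs_of_nonneg ENNReal.toReal_nonneg]
  have h2 := markov (fun G : SimpleGraph (Fin n) => ∑ v, |dg G v - yn n|)
    (fun G => Finset.sum_nonneg fun _ _ => abs_nonneg _) (ε * n * (ε * √n / 2)) (by positivity)
    {G | ε * n ≤ ((Finset.univ.filter fun v : Fin n =>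
      ε ≤ |(G.degree v : ℝ) / √(n / 2) - 1|).card : ℝ)} (fun G hG => by
      have h3 : ε * n ≤ ((Finset.univ.filter fun v : Fin n =>
        ε ≤ |(G.degree v : ℝ) / √(n / 2) - 1|).card : ℝ) := hG
      calc ε * n * (ε * √n / 2) ≤ ((Finset.univ.filter fun v : Fin n =>
            ε ≤ |(G.degree v : ℝ) / √(n / 2) - 1|).card : ℝ) * (ε * √n / 2) :=
            mul_le_mul_of_nonneg_right h3 (by positivity)
        _ = ∑ _v ∈ Finset.univ.filter fun v : Fin n =>
            ε ≤ |(G.degree v : ℝ) / √(n / 2) - 1|, ε * √n / 2 := by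
            rw [Finset.sum_const, nsmul_eq_mul]
        _ ≤ ∑ v ∈ Finset.univ.filter fun v : Fin n =>
            ε ≤ |(G.degree v : ℝ) / √(n / 2) - 1|, |dg G v - yn n| :=
            Finset.sum_le_sum fun v hv => rel_dev hn G v ε hε (Finset.mem_filter.mp hv).2
        _ ≤ ∑ v, |dg G v - yn n| :=
            Finset.sum_le_sum_of_subset_of_nonneg (Finset.subset_univ _)
              fun _ _ _ => abs_nonneg _)
  refine lt_of_le_of_lt h2 ?_
  rw [ex_sum]
  have h4 : ∑ v : Fin n, ex (fun G : SimpleGraph (Fin n) => |dg G v - yn n|) ≤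
      n * (ε ^ 2 * η / 4 * √n) := by
    calc ∑ v : Fin n, ex (fun G : SimpleGraph (Fin n) => |dg G v - yn n|) ≤
          ∑ _v : Fin n, ε ^ 2 * η / 4 * √n := Finset.sum_le_sum fun v _ => h1 v
      _ = _ := by rw [Finset.sum_const, Finset.card_univ, Fintype.card_fin, nsmul_eq_mul]
  calc 1 / (ε * n * (ε * √n / 2)) * ∑ v : Fin n, ex (fun G : SimpleGraph (Fin n) =>
        |dg G v - yn n|) ≤ 1 / (ε * n * (ε * √n / 2)) * (n * (ε ^ 2 * η / 4 * √n)) :=
        mul_le_mul_of_nonneg_left h4 (by positivity)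
    _ = η / 2 := by field_simp; ring
    _ < η := by linarith only [hη]

end Vale.Agent.N046
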